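import Vale.Agent.P275FM.Dual
import Mathlib.Algebra.Colimit.Module

/-!
# P275, strict models: filtered colimits of complexes with three differentials
-/

open Function Vale.Agent.P275FM

noncomputable section

namespace Vale.Agent.P275SM

section str

variable {T T' T'' : Type*} [AddCommGroup T] [Module ℂ T] [AddCommGroup T'] [Module ℂ T']
  [AddCommGroup T''] [Module ℂ T''] {X : Tri T} {X' : Tri T'} {X'' : Tri T''}

/-- maps which commute with the whole structure -/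
structure Str (X : Tri T) (X' : Tri T') (f : T →ₗ[ℂ] T') : Prop where
  A : ∀ a, X'.A (f a) = f (X.A a)
  B : ∀ a, X'.B (f a) = f (X.B a)
  δ : ∀ a, X'.δ (f a) = f (X.δ a)
  dg : ∀ q a, X'.dg q (f a) = f (X.dg q a)

variable {f : T →ₗ[ℂ] T'} {g : T' →ₗ[ℂ] T''}

theorem Str.mor (h : Str X X' f) : Tri.Mor X X' 0 f :=
  ⟨⟨1, one_ne_zero, fun a => by rw [h.A, one_smul], fun a => by rw [h.B, one_smul],
    fun a => by rw [h.δ, one_smul]⟩, h.dg⟩

theorem Str.D (h : Str X X' f) (a : T) : X'.D (f a) = f (X.D a) := by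
  rw [Tri.D_apply, Tri.D_apply, h.A, h.B, h.δ, map_add, map_add]

theorem Str.ch (h : Str X X' f) : Ch X.D X'.D f := Ch.of_comm h.D

theorem Str.id : Str X X LinearMap.id := ⟨fun _ => rfl, fun _ => rfl, fun _ => rfl, fun _ _ => rfl⟩

theorem Str.comp (k : Str X' X'' g) (h : Str X X' f) : Str X X'' (g ∘ₗ f) :=
  ⟨fun a => (k.A _).trans (congrArg g (h.A a)), fun a => (k.B _).trans (congrArg g (h.B a)),
    fun a => (k.δ _).trans (congrArg g (h.δ a)), fun q a => (k.dg q _).trans (congrArg g (h.dg q a))⟩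

theorem Str.grd (h : Str X X' f) (k : X.OK) (k' : X'.OK) :
    Grd k.wt k'.wt 0 (Coh.map f h.ch) := k.grd_mor k' h.mor

/-- quasi-isomorphisms -/
structure Qs (D : Module.End ℂ T) (D' : Module.End ℂ T') (f : T →ₗ[ℂ] T') : Prop where
  comm : ∀ a, D' (f a) = f (D a)
  inj : ∀ z y', D z = 0 → f z = D' y' → ∃ y, z = D y
  surj : ∀ z', D' z' = 0 → ∃ z y, D z = 0 ∧ f z - z' = D' y

variable {D : Module.End ℂ T} {D' : Module.End ℂ T'} {D'' : Module.End ℂ T''}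

theorem Qs.ch (h : Qs D D' f) : Ch D D' f := Ch.of_comm h.comm

theorem Qs.bij (h : Qs D D' f) (c : Ch D D' f) : Bijective (Coh.map f c) :=
  ⟨(Coh.map_inj c).2 h.inj, (Coh.map_surj c).2 h.surj⟩

theorem Qs.of_bij (h : ∀ a, D' (f a) = f (D a)) {c : Ch D D' f} (b : Bijective (Coh.map f c)) :
    Qs D D' f := ⟨h, (Coh.map_inj c).1 b.1, (Coh.map_surj c).1 b.2⟩

theorem map_comp' (c : Ch D D' f) (c' : Ch D' D'' g) :
    (Coh.map (g ∘ₗ f) (c'.comp c) : _ → _) = Coh.map g c' ∘ Coh.map f c :=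
  funext (Coh.map_comp c' c)

theorem Qs.comp (k : Qs D' D'' g) (h : Qs D D' f) : Qs D D'' (g ∘ₗ f) :=
  .of_bij (fun a => (k.comm _).trans (congrArg g (h.comm a))) (c := k.ch.comp h.ch)
    (map_comp' h.ch k.ch ▸ (k.bij _).comp (h.bij _))

/-- two out of three -/
theorem Qs.right (k : Qs D D'' (g ∘ₗ f)) (h : Qs D D' f) (c : ∀ a, D'' (g a) = g (D' a)) :
    Qs D' D'' g :=
  .of_bij c (c := .of_comm c) ((Bijective.of_comp_iff _ (h.bij h.ch)).1
    (map_comp' h.ch (.of_comm c) ▸ k.bij _))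

theorem Qs.left (k : Qs D D'' (g ∘ₗ f)) (h : Qs D' D'' g) (c : ∀ a, D' (f a) = f (D a)) :
    Qs D D' f :=
  .of_bij c (c := .of_comm c) ((Bijective.of_comp_iff' (h.bij h.ch) _).1
    (map_comp' (.of_comm c) h.ch ▸ k.bij _))

theorem Qs.congr (h : Qs D D' f) {f' : T →ₗ[ℂ] T'} (e : ∀ a, f' a = f a) : Qs D D' f' :=
  LinearMap.ext e ▸ h

theorem Qs.of_inv (c : ∀ a, D' (f a) = f (D a)) (b : Bijective f) : Qs D D' f := by
  refine ⟨c, fun z y _ e => ?_, fun z h => ?_⟩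
  · obtain ⟨y, rfl⟩ := b.2 y
    exact ⟨y, b.1 (e.trans (c y))⟩
  · obtain ⟨z, rfl⟩ := b.2 z
    exact ⟨z, 0, b.1 (by rw [← c, h, map_zero]), by rw [sub_self, map_zero]⟩

/-- filtered maps which are quasi-isomorphisms on the graded pieces; `p k` is the projection on
the column `k`, the differentials are `D₀ + c` where `D₀` keeps the columns and `c` raises them -/
theorem Qs.cols {D₀ c : Module.End ℂ T} {D₀' c' : Module.End ℂ T'} {p : ℕ → Module.End ℂ T}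
    {p' : ℕ → Module.End ℂ T'} (g : IsGr p) (g' : IsGr p') (dd : ∀ a, (D₀ + c) ((D₀ + c) a) = 0)
    (dd' : ∀ a, (D₀' + c') ((D₀' + c') a) = 0) (h0 : ∀ k a, p k (D₀ a) = D₀ (p k a))
    (h0' : ∀ k a, p' k (D₀' a) = D₀' (p' k a)) (h1 : ∀ k a, (∀ j < k, p j a = 0) → p k (c a) = 0)
    (h1' : ∀ k a, (∀ j < k, p' j a = 0) → p' k (c' a) = 0) (hp : ∀ k a, p' k (f a) = f (p k a))
    (hc : ∀ a, c' (f a) = f (c a)) (q : Qs D₀ D₀' f) : Qs (D₀ + c) (D₀' + c') f := by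
  have cm : ∀ a, (D₀' + c') (f a) = f ((D₀ + c) a) := fun a => by
    rw [LinearMap.add_apply, LinearMap.add_apply, q.comm, hc, map_add]
  -- the cone is exact
  have key : ∀ k (z : T) (y : T'), (D₀ + c) z = 0 → f z = (D₀' + c') y → ∃ u v,
      (∀ j < k, p j (z - (D₀ + c) u) = 0) ∧ ∀ j < k, p' j (y - f u - (D₀' + c') v) = 0 := by
    intro k z y hz e
    induction k with
    | zero => exact ⟨0, 0, fun _ h => absurd h (Nat.not_lt_zero _),
        fun _ h => absurd h (Nat.not_lt_zero _)⟩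
    | succ k ih =>
      obtain ⟨u, v, a, b⟩ := ih
      obtain ⟨z₁, hz₁⟩ : ∃ z₁, z₁ = z - (D₀ + c) u := ⟨_, rfl⟩
      obtain ⟨y₁, hy₁⟩ : ∃ y₁, y₁ = y - f u - (D₀' + c') v := ⟨_, rfl⟩
      rw [← hz₁] at a
      rw [← hy₁] at b
      have c1 : (D₀ + c) z₁ = 0 := by rw [hz₁, map_sub, hz, dd, sub_zero]
      have c2 : f z₁ = (D₀' + c') y₁ := by
        rw [hz₁, hy₁, map_sub, map_sub, map_sub, dd', sub_zero, cm, e]
      have c3 : D₀ (p k z₁) = 0 := by
        have := congrArg (p k) c1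
        rwa [LinearMap.add_apply, map_add, h0, h1 k _ a, add_zero, map_zero] at this
      have c4 : f (p k z₁) = D₀' (p' k y₁) := by
        rw [← hp, c2, LinearMap.add_apply, map_add, h0', h1' k _ b, add_zero]
      obtain ⟨u₁, hu⟩ := q.inj _ _ c3 c4
      obtain ⟨u₂, v₂, hu₂, hv⟩ := q.surj (p' k y₁ - f u₁) (by rw [map_sub, q.comm, ← hu, c4, sub_self])
      have l1 : ∀ (w : T), ∀ j < k, p j (p k w) = 0 := fun w j hj => by rw [g.mul, if_neg hj.ne]
      have l2 : ∀ (w : T'), ∀ j < k, p' j (p' k w) = 0 := fun w j hj => by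
        rw [g'.mul, if_neg hj.ne]
      refine ⟨u + p k (u₁ + u₂), v - p' k v₂, fun j hj => ?_, fun j hj => ?_⟩
      · rw [map_add, ← sub_sub, ← hz₁, map_sub, LinearMap.add_apply, map_add, h0,
          h1 j _ fun i hi => l1 _ i (by omega), add_zero, g.mul]
        split_ifs with hjk
        · rw [hjk, ← h0, map_add, hu₂, add_zero, ← hu, g.mul, if_pos rfl, sub_self]
        · rw [a j (by omega), map_zero, sub_zero]
      · have e1 : y - f (u + p k (u₁ + u₂)) - (D₀' + c') (v - p' k v₂) =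
            y₁ - f (p k (u₁ + u₂)) + (D₀' + c') (p' k v₂) := by
          rw [hy₁, map_add, map_sub]; abel
        rw [e1, map_add, map_sub, ← hp, LinearMap.add_apply, map_add (p' j), h0',
          h1' j _ fun i hi => l2 _ i (by omega), add_zero, g'.mul, g'.mul]
        split_ifs with hjk
        · rw [hjk, ← h0', ← hv, map_add, map_add, map_sub, map_sub, g'.mul, if_pos rfl]
          abel
        · rw [b j (by omega), map_zero, sub_zero, add_zero]
  have fin : ∀ (z : T) (y : T'), (D₀ + c) z = 0 → f z = (D₀' + c') y → ∃ u v,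
      z = (D₀ + c) u ∧ y - f u = (D₀' + c') v := fun z y hz e => by
    obtain ⟨N, hN⟩ := g.sum
    obtain ⟨N', hN'⟩ := g'.sum
    obtain ⟨u, v, a, b⟩ := key (N + N') z y hz e
    refine ⟨u, v, sub_eq_zero.1 ?_, sub_eq_zero.1 ?_⟩
    · rw [← hN (z - _)]
      exact Finset.sum_eq_zero fun j hj => a j (by have := Finset.mem_range.1 hj; omega)
    · rw [← hN' (y - f u - _)]
      exact Finset.sum_eq_zero fun j hj => b j (by have := Finset.mem_range.1 hj; omega)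
  refine ⟨cm, fun z y hz e => (fin z y hz e).imp fun _ ⟨_, h, _⟩ => h, fun y hy => ?_⟩
  obtain ⟨u, v, a, b⟩ := fin 0 y (map_zero _) (by rw [map_zero, hy])
  exact ⟨u, -v, a.symm, by rw [map_neg, ← b, neg_sub]⟩

end str

/-- a system of modules: `H i j` is a set of maps, which has at most one element when `j` is
generic -/
structure Sy {ι : Type*} (G : ι → Type*) [∀ i, AddCommGroup (G i)] [∀ i, Module ℂ (G i)] where
  H : ∀ i j, Set (G i →ₗ[ℂ] G j)
  gen : ι → Prop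
  id : ∀ i, LinearMap.id ∈ H i i
  comp : ∀ {i j k a b}, a ∈ H i j → b ∈ H j k → b ∘ₗ a ∈ H i k
  uniq : ∀ {i j a b}, gen j → a ∈ H i j → b ∈ H i j → a = b
  dir : ∀ i j, ∃ k, gen k ∧ (H i k).Nonempty ∧ (H j k).Nonempty
  ne : Nonempty ι

namespace Sy

variable {ι : Type*} {G : ι → Type*} [∀ i, AddCommGroup (G i)] [∀ i, Module ℂ (G i)] (S : Sy G)

/-- the generic objects -/
def I : Type _ := {i // S.gen i}

instance : Preorder S.I where
  le i j := (S.H i.1 j.1).Nonempty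
  le_refl i := ⟨_, S.id i.1⟩
  le_trans _ _ _ := fun ⟨_, a⟩ ⟨_, b⟩ => ⟨_, S.comp a b⟩

instance : Nonempty S.I :=
  let ⟨i⟩ := S.ne
  let ⟨k, h, _⟩ := S.dir i i
  ⟨⟨k, h⟩⟩

instance : IsDirectedOrder S.I :=
  ⟨fun i j => let ⟨k, h, a, b⟩ := S.dir i.1 j.1; ⟨⟨k, h⟩, a, b⟩⟩

instance : DecidableEq S.I := Classical.decEq _

/-- the transition maps -/
def tr (i j : S.I) (h : i ≤ j) : G i.1 →ₗ[ℂ] G j.1 := Set.Nonempty.some h

theorem tr_mem (i j : S.I) (h : i ≤ j) : S.tr i j h ∈ S.H i.1 j.1 := Set.Nonempty.some_mem h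

instance : DirectedSystem (fun i : S.I => G i.1) (S.tr · · ·) where
  map_self i x := LinearMap.congr_fun (S.uniq i.2 (S.tr_mem i i le_rfl) (S.id i.1)) x
  map_map k j i h h' x :=
    LinearMap.congr_fun (S.uniq k.2 (S.comp (S.tr_mem i j h) (S.tr_mem j k h')) (S.tr_mem i k _)) x

/-- the colimit -/
def L : Type _ := Module.DirectLimit (fun i : S.I => G i.1) S.tr

instance : AddCommGroup S.L :=
  inferInstanceAs (AddCommGroup (Module.DirectLimit (fun i : S.I => G i.1) S.tr))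

instance : Module ℂ S.L :=
  inferInstanceAs (Module ℂ (Module.DirectLimit (fun i : S.I => G i.1) S.tr))

/-- the map from a generic object -/
def of0 (i : S.I) : G i.1 →ₗ[ℂ] S.L := Module.DirectLimit.of ℂ _ (fun i : S.I => G i.1) S.tr i

/-- the map to the colimit -/
def of (i : ι) : G i →ₗ[ℂ] S.L :=
  S.of0 ⟨_, (S.dir i i).choose_spec.1⟩ ∘ₗ (S.dir i i).choose_spec.2.1.some

variable {S}

theorem of0_H {i j : S.I} {a : G i.1 →ₗ[ℂ] G j.1} (h : a ∈ S.H i.1 j.1) (x : G i.1) :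
    S.of0 j (a x) = S.of0 i x := by
  rw [S.uniq j.2 h (S.tr_mem i j ⟨a, h⟩)]
  exact Module.DirectLimit.of_f

theorem of_eq {i : ι} {j : S.I} {a : G i →ₗ[ℂ] G j.1} (h : a ∈ S.H i j.1) (x : G i) :
    S.of i x = S.of0 j (a x) := by
  obtain ⟨k, hk, ⟨b, hb⟩, ⟨c, hc⟩⟩ := S.dir (S.dir i i).choose j.1
  refine (of0_H (i := ⟨_, (S.dir i i).choose_spec.1⟩) (j := ⟨k, hk⟩) hb _).symm.trans
    (Eq.trans (congrArg _ ?_) (of0_H (j := ⟨k, hk⟩) hc _))
  exact LinearMap.congr_fun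
    (S.uniq hk (S.comp (S.dir i i).choose_spec.2.1.some_mem hb) (S.comp h hc)) x

theorem of_H {i j : ι} {a : G i →ₗ[ℂ] G j} (h : a ∈ S.H i j) (x : G i) :
    S.of j (a x) = S.of i x := by
  obtain ⟨k, hk, ⟨b, hb⟩, -⟩ := S.dir j j
  rw [of_eq (j := ⟨k, hk⟩) hb, of_eq (j := ⟨k, hk⟩) (S.comp h hb)]
  rfl

theorem surj (t : S.L) : ∃ i x, S.gen i ∧ t = S.of i x :=
  let ⟨i, x, e⟩ := Module.DirectLimit.exists_of t
  ⟨i.1, x, i.2, e.symm.trans (of_eq (j := i) (S.id i.1) x).symm⟩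

theorem surj' (t : S.L) (i : ι) : ∃ j x, S.gen j ∧ (S.H i j).Nonempty ∧ t = S.of j x := by
  obtain ⟨j, x, -, rfl⟩ := surj t
  obtain ⟨k, hk, a, b, hb⟩ := S.dir i j
  exact ⟨k, b x, hk, a, (of_H hb x).symm⟩

theorem zero {i : ι} {x : G i} (h : S.of i x = 0) : ∃ j, S.gen j ∧ ∃ a ∈ S.H i j, a x = 0 := by
  obtain ⟨k, hk, ⟨b, hb⟩, -⟩ := S.dir i i
  rw [of_eq (j := ⟨k, hk⟩) hb] at h
  obtain ⟨j, hj, e⟩ := Module.DirectLimit.of.zero_exact h
  exact ⟨j.1, j.2, _, S.comp hb (S.tr_mem ⟨k, hk⟩ j hj), e⟩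

theorem ind {p : S.L → Prop} (h : ∀ i x, S.gen i → p (S.of i x)) (t : S.L) : p t :=
  let ⟨i, x, hi, e⟩ := surj t
  e ▸ h i x hi

variable {P : Type*} [AddCommGroup P] [Module ℂ P]

/-- maps from the colimit -/
theorem ex_lift (R : ∀ i, (G i →ₗ[ℂ] P) → Prop) (h1 : ∀ i, S.gen i → ∃ g, R i g)
    (h2 : ∀ i j g g' a, R i g → R j g' → S.gen j → a ∈ S.H i j → ∀ x, g' (a x) = g x) :
    ∃ Λ : S.L →ₗ[ℂ] P, ∀ i g, R i g → ∀ x, Λ (S.of i x) = g x := by
  choose g hg using h1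
  refine ⟨Module.DirectLimit.lift ℂ _ (fun i : S.I => G i.1) S.tr (fun i => g i.1 i.2)
    fun i j h => h2 _ _ _ _ _ (hg _ _) (hg _ _) j.2 (S.tr_mem i j h), fun i g' hg' x => ?_⟩
  obtain ⟨k, hk, ⟨b, hb⟩, -⟩ := S.dir i i
  rw [of_eq (j := ⟨k, hk⟩) hb]
  exact (Module.DirectLimit.lift_of _ _ _).trans (h2 _ _ _ _ _ hg' (hg _ _) hk hb x)

/-- the map defined by a compatible family -/
def lift (g : ∀ i, G i →ₗ[ℂ] P) (h : ∀ i j, ∀ a ∈ S.H i j, ∀ x, g j (a x) = g i x) : S.L →ₗ[ℂ] P :=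
  (ex_lift (fun i g' => g' = g i) (fun _ _ => ⟨_, rfl⟩)
    fun i j _ _ a e e' _ ha x => by rw [e, e', h i j a ha]).choose

theorem lift_of (g : ∀ i, G i →ₗ[ℂ] P) (h : ∀ i j, ∀ a ∈ S.H i j, ∀ x, g j (a x) = g i x) (i : ι)
    (x : G i) : lift g h (S.of i x) = g i x :=
  (ex_lift (fun i g' => g' = g i) (fun _ _ => ⟨_, rfl⟩)
    fun i j _ _ a e e' _ ha x => by rw [e, e', h i j a ha]).choose_spec i _ rfl x

variable (S) in
/-- natural operators -/
def Nat (O : ∀ i, Module.End ℂ (G i)) : Prop := ∀ i j, ∀ a ∈ S.H i j, ∀ x, O j (a x) = a (O i x)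

/-- the operator on the colimit -/
def Nat.op {O : ∀ i, Module.End ℂ (G i)} (h : S.Nat O) : Module.End ℂ S.L :=
  lift (fun i => S.of i ∘ₗ O i) fun i j a ha x => (congrArg _ (h i j a ha x)).trans (of_H ha _)

theorem Nat.op_of {O : ∀ i, Module.End ℂ (G i)} (h : S.Nat O) (i : ι) (x : G i) :
    h.op (S.of i x) = S.of i (O i x) := lift_of _ _ i x

variable {X : ∀ i, Tri (G i)} (h : ∀ i j, ∀ a ∈ S.H i j, Str (X i) (X j) a)

/-- the three differentials on the colimit -/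
def tri : Tri S.L where
  A := Nat.op (O := fun i => (X i).A) fun i j a ha => (h i j a ha).A
  B := Nat.op (O := fun i => (X i).B) fun i j a ha => (h i j a ha).B
  δ := Nat.op (O := fun i => (X i).δ) fun i j a ha => (h i j a ha).δ
  dg q := Nat.op (O := fun i => (X i).dg q) fun i j a ha => (h i j a ha).dg q

theorem str_of (i : ι) : Str (X i) (tri h) (S.of i) :=
  ⟨Nat.op_of (fun i j a ha => (h i j a ha).A) i, Nat.op_of (fun i j a ha => (h i j a ha).B) i,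
    Nat.op_of (fun i j a ha => (h i j a ha).δ) i,
    fun q => Nat.op_of (fun i j a ha => (h i j a ha).dg q) i⟩

theorem tri_ok (k : ∀ i, (X i).OK) {N : ℕ} (hN : ∀ i a, a ∈ (X i).lt N) : (tri h).OK := by
  have s := str_of h
  refine ⟨ind fun i x _ => ?_, ind fun i x _ => ?_, ind fun i x _ => ?_, ind fun i x _ => ?_,
    ind fun i x _ => ?_, ind fun i x _ => ?_, fun a b => ind fun i x _ => ?_,
    ⟨N, ind fun i x _ => ?_⟩, fun q => ind fun i x _ => ?_, ind fun i x _ => ?_,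
    fun q => ind fun i x _ => ?_, ind fun i x _ => ?_, fun q => ind fun i x _ => ?_,
    ind fun i x _ e => ?_, ind fun i x _ e => ?_⟩
  · rw [(s i).A, (s i).A, (k i).AA, map_zero]
  · rw [(s i).B, (s i).B, (k i).BB, map_zero]
  · rw [(s i).δ, (s i).δ, (k i).δδ, map_zero]
  · rw [(s i).B, (s i).A, (s i).A, (s i).B, (k i).AB, map_neg]
  · rw [(s i).δ, (s i).A, (s i).A, (s i).δ, (k i).Aδ, map_neg]
  · rw [(s i).δ, (s i).B, (s i).B, (s i).δ, (k i).Bδ, map_neg]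
  · rw [(s i).dg, (s i).dg, (k i).dg_mul]
    split_ifs
    exacts [rfl, map_zero _]
  · simp only [(s i).dg]
    rw [← map_sum, (k i).sum_lt (hN i x)]
  · rw [(s i).A, (s i).dg, (s i).dg, (s i).A, (k i).dgA]
  · rw [(s i).A, (s i).dg, (k i).dg0A, map_zero]
  · rw [(s i).B, (s i).dg, (s i).dg, (s i).B, (k i).dgB]
  · rw [(s i).B, (s i).dg, (k i).dg0B, map_zero]
  · rw [(s i).δ, (s i).dg, (s i).dg, (s i).δ, (k i).dgδ]
  · rw [(s i).B, (s i).A] at e
    obtain ⟨j, -, a, ha, e⟩ := zero e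
    obtain ⟨c, hc⟩ := (k j).l1 (a x) (by rw [(h i j a ha).B, (h i j a ha).A, e])
    exact ⟨S.of j c, by rw [← of_H ha, (s j).B, (s j).B, (s j).A, hc]⟩
  · rw [(s i).A, (s i).B] at e
    obtain ⟨j, -, a, ha, e⟩ := zero e
    obtain ⟨c, hc⟩ := (k j).l2 (a x) (by rw [(h i j a ha).A, (h i j a ha).B, e])
    exact ⟨S.of j c, by rw [← of_H ha, (s j).A, (s j).B, (s j).A, hc]⟩

theorem lt_of {N : ℕ} (hN : ∀ i a, a ∈ (X i).lt N) (t : S.L) : t ∈ (tri h).lt N :=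
  ind (p := fun t => t ∈ (tri h).lt N)
    (fun i x _ q hq => by rw [(str_of h i).dg, hN i x q hq, map_zero]) t

/-- quasi-isomorphisms pass to the colimit -/
theorem qs_of {D₀ : Module.End ℂ P} {D : ∀ i, Module.End ℂ (G i)} {D' : Module.End ℂ S.L}
    (hD : S.Nat D) (hD' : ∀ i x, D' (S.of i x) = S.of i (D i x)) {e : ∀ i, P →ₗ[ℂ] G i}
    (he : ∀ i j a, S.gen j → a ∈ S.H i j → ∀ x, a (e i x) = e j x) (q : ∀ i, S.gen i → Qs D₀ (D i) (e i))
    {E : P →ₗ[ℂ] S.L} (hE : ∀ i x, E x = S.of i (e i x)) : Qs D₀ D' E := by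
  obtain ⟨i₀, -, h₀, -⟩ := surj (0 : S.L)
  refine ⟨fun x => by rw [hE i₀, hE i₀, hD', (q i₀ h₀).comm], fun z y hz => ?_, fun t => ?_⟩
  · obtain ⟨i, y, -, rfl⟩ := surj y
    intro e1
    rw [hE i, hD', ← sub_eq_zero, ← map_sub] at e1
    obtain ⟨j, hj, a, ha, e2⟩ := zero e1
    rw [map_sub, he i j a hj ha, ← hD i j a ha, sub_eq_zero] at e2
    exact (q j hj).inj _ _ hz e2
  · obtain ⟨i, y, -, rfl⟩ := surj t
    intro e1
    rw [hD'] at e1
    obtain ⟨j, hj, a, ha, e2⟩ := zero e1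
    obtain ⟨z, w, hz, e3⟩ := (q j hj).surj (a y) (by rw [hD i j a ha, e2])
    exact ⟨z, S.of j w, hz, by rw [hE j, ← of_H ha, ← map_sub, e3, hD']⟩

end Sy

end Vale.Agent.P275SM
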