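import Vale.Agent.P275SM.Io

/-!
# P275, strict models: functions of the column, the form degree and the total degree
-/

open scoped Manifold ContDiff Topology Matrix
open Filter Set Function
open Vale.Agent.P272.K Vale.Agent.P281Z.Hg Vale.Agent.P275MC Vale.Agent.P275FM
open Vale.Agent.P281Z (HolM Mf)
open Vale.Agent.P280Z.Pu (smo_of)
open Vale.Agent.P275RG
open Vale.Agent.P275AR (Fam Dia dc del)

set_option linter.unusedSectionVars false

noncomputable section

namespace Vale.Agent.P275SM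

theorem gl_wd {d : ℕ} {M : Type} [TopologicalSpace M] [ChartedSpace (Cm d) M]
    [IsManifold 𝓘(ℂ, Cm d) ω M] {s : ℕ} {y : SF d M} (hy : y ∈ Dg d M s) (e : ℕ → ℂ) (u : SF d M) :
    P275AR.gl d M e (wd y u) = wd y (P275AR.gl d M (fun q => e (q + s)) u) := by
  have a : ∀ (e : ℕ → ℂ) (q : ℕ) (v : SF d M),
      P275AR.gl d M e (pj d M q v) = e q • pj d M q v := fun e q v => by
    rw [P275AR.pj_eq', P275AR.gl_gl, ← P275AR.gl_const, P275AR.gl_gl]
    refine P275AR.gl_congr (fun j _ => ?_) v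
    split_ifs with k
    exacts [by rw [k], by rw [mul_zero, mul_zero]]
  refine gr_pj.map_ext (f := (P275AR.gl d M e ∘ₗ wd y).toAddMonoidHom)
    (g := (wd y ∘ₗ P275AR.gl d M fun q => e (q + s)).toAddMonoidHom) (fun q v => ?_) u
  change P275AR.gl d M e (wd y (pj d M q v)) = wd y (P275AR.gl d M _ (pj d M q v))
  rw [a, map_smul, ← pj_wd hy, a]

variable {n n' : ℕ} {U U' : Type} [TopologicalSpace U] [ChartedSpace (Cm n) U] [T2Space U]
  [IsManifold 𝓘(ℂ, Cm n) ω U] [TopologicalSpace U'] [ChartedSpace (Cm n') U'] [T2Space U']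
  [IsManifold 𝓘(ℂ, Cm n') ω U'] {c : Cp n U} {c' : Cp n' U'} {Φ : Filter U} {Φ' : Filter U'}
  {h : Al c Φ} {h' : Al c' Φ'}

theorem gl_gl (a b : ℕ → ℕ → ℂ) (t : TT h) :
    gl h a (gl h b t) = gl h (fun p q => a p q * b p q) t := by
  induction t using ind with | k M u _ => rw [gl_of, gl_of, gl_of, Fam.gl_gl]

theorem gl_comm (a b : ℕ → ℕ → ℂ) (t : TT h) : gl h a (gl h b t) = gl h b (gl h a t) := by
  simp only [gl_gl, mul_comm]

theorem gl_const (a : ℂ) (t : TT h) : gl h (fun _ _ => a) t = a • t := by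
  induction t using ind with | k M u _ => rw [gl_of, Fam.gl_const, map_smul]

theorem gl_sum {ι : Type*} (s : Finset ι) (a : ι → ℕ → ℕ → ℂ) (t : TT h) :
    ∑ i ∈ s, gl h (a i) t = gl h (fun p q => ∑ i ∈ s, a i p q) t := by
  induction t using ind with | k M u _ =>
  rw [Finset.sum_congr rfl fun i _ => gl_of (a i) M u, ← map_sum, Fam.gl_sum, gl_of]

theorem gl_A (a : ℕ → ℕ → ℂ) (t : TT h) :
    gl h a ((tri h).A t) = (tri h).A (gl h (fun p q => a p (q + 1)) t) := by
  induction t using ind with | k M u _ =>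
  rw [(str_of h M).A, gl_of, gl_of, (str_of h M).A]
  exact congrArg _ (Fam.gl_del u _)

theorem gl_B (a : ℕ → ℕ → ℂ) (t : TT h) :
    gl h a ((tri h).B t) = (tri h).B (gl h (fun p q => a p (q + 1)) t) := by
  induction t using ind with | k M u _ =>
  rw [(str_of h M).B, gl_of, gl_of, (str_of h M).B]
  refine congrArg _ ?_
  change M.K.gl _ (M.K.d u - M.K.del u) = M.K.d _ - M.K.del _
  rw [map_sub, Fam.gl_d, Fam.gl_del]

theorem gl_δ (a : ℕ → ℕ → ℂ) (t : TT h) :
    gl h a ((tri h).δ t) = (tri h).δ (gl h (fun p q => a (p + 1) q) t) := by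
  induction t using ind with | k M u _ =>
  rw [(str_of h M).δ, gl_of, gl_of, (str_of h M).δ]
  exact congrArg _ ((arr_ok M.cln).gl_δ a u)

theorem gl_dg (a : ℕ → ℕ → ℂ) (q : ℕ) (t : TT h) :
    gl h a ((tri h).dg q t) = (tri h).dg q (gl h a t) := by rw [tri_dg, tri_dg, gl_comm]

theorem gl_wdT {η : SF n U} (k : Xt c η) {s : ℕ} (h0 : η ∈ Dg n U s) (a : ℕ → ℕ → ℂ) (t : TT h) :
    gl h a (wdT h η t) = wdT h η (gl h (fun p q => a p (q + s)) t) := by
  induction t using k.ind with | a M u y b e =>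
  have i : y ∈ Dg n M.Y.X s :=
    mem_Dg_iff.2 (pb_inj_dense M.oe b.dense (by rw [pb_pj, e, pj_eq h0]))
  rw [wdT_of e, gl_of, gl_of, wdT_of e]
  exact congrArg _ (funext fun I => gl_wd (pb_Dg _ i) _ _)

variable (h) in
/-- multiplication by a function of the total degree -/
def tg (e : ℕ → ℂ) : Module.End ℂ (TT h) := gl h fun p q => e (q + p)

variable (e e' : ℕ → ℂ) (t : TT h)

theorem tg_A : tg h e ((tri h).A t) = (tri h).A (tg h (fun q => e (q + 1)) t) :=
  (gl_A _ t).trans (by simp only [tg, Nat.add_right_comm])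

theorem tg_B : tg h e ((tri h).B t) = (tri h).B (tg h (fun q => e (q + 1)) t) :=
  (gl_B _ t).trans (by simp only [tg, Nat.add_right_comm])

theorem tg_δ : tg h e ((tri h).δ t) = (tri h).δ (tg h (fun q => e (q + 1)) t) := gl_δ _ t

theorem tg_D : tg h e ((tri h).D t) = (tri h).D (tg h (fun q => e (q + 1)) t) := by
  rw [Tri.D_apply, Tri.D_apply, map_add, map_add, tg_A, tg_B, tg_δ]

theorem tg_dg (q : ℕ) : tg h e ((tri h).dg q t) = (tri h).dg q (tg h e t) := gl_dg _ q t

theorem tg_tg : tg h e (tg h e' t) = tg h (fun q => e q * e' q) t := gl_gl _ _ t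

theorem tg_const (a : ℂ) : tg h (fun _ => a) t = a • t := gl_const a t

theorem tg_pull (f : U' → U) : tg h' e (pull h h' f t) = pull h h' f (tg h e t) := pull_gl _ f t

theorem tg_io (a b : Ac n (univ : Set U)) (k : (b : SF n U) = P275AR.gl _ _ e a) :
    tg h e (io h a) = io h b := gl_io _ a b k

theorem tg_wdT {η : SF n U} (k : Xt c η) {s : ℕ} (h0 : η ∈ Dg n U s) :
    tg h e (wdT h η t) = wdT h η (tg h (fun q => e (q + s)) t) :=
  (gl_wdT k h0 _ t).trans (by simp only [tg, Nat.add_right_comm])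

theorem xt_of {m : ℕ} {S : Mf m} {hS : S.Kah} {u : U → S.X} (hu : Alg c (.self S hS) u)
    (hs : Smo n m u) (y : SF m S.X) : Xt c (pb hs y) := ⟨m, S, hS, u, hu, y, rfl⟩

/-- exterior multiplication by the pull-back of a form on a compact Kaehler manifold -/
theorem wdT_hyp {m : ℕ} {S : Mf m} {hS : S.Kah} {u : U → S.X} (hu : Alg c (.self S hS) u)
    (hs : Smo n m u) {s : ℕ} {y : SF m S.X} (h0 : y ∈ Dg m S.X s) (h1 : del m S.X y = 0)
    (h2 : dlb m S.X y = 0) :
    pb hs y ∈ Dg n U s ∧ del n U (pb hs y) = 0 ∧ dlb n U (pb hs y) = 0 :=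
  ⟨pb_Dg _ h0, (P275AR.pb_del hu.hol y).symm.trans (by rw [h1, map_zero]),
    (pb_dlb hu.hol hs y).symm.trans (by rw [h2, map_zero])⟩

end Vale.Agent.P275SM
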