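import Vale.Agent.P275SM.TT

/-!
# P275, strict models: comparison with the forms with compact support
-/

open scoped Manifold ContDiff Topology Matrix
open Filter Set Function Topology
open Vale.Agent.P272.K Vale.Agent.P281Z.Hg Vale.Agent.P275MC Vale.Agent.P275FM
open Vale.Agent.P299.IX Vale.Agent.P299.IX.Fock
open Vale.Agent.P281Z (HolM Mf Emb An holM_id)
open Vale.Agent.P277Z.Slc (St)
open Vale.Agent.P280Z.Pu (smo_of)
open Vale.Agent.P275RG
open Vale.Agent.P275AR (Fam Sys Dia dc Hc ch_dom inj_dom surj_dom mx mx_one mx_ne cmb_mx lr_ne lr_c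
  del pb_eq pb_gl Act KC KC_ok wt)

set_option linter.unusedSectionVars false

noncomputable section

namespace Vale.Agent.P275SM

variable {n n' n'' : ℕ} {U U' U'' : Type} [TopologicalSpace U] [ChartedSpace (Cm n) U] [T2Space U]
  [IsManifold 𝓘(ℂ, Cm n) ω U] [TopologicalSpace U'] [ChartedSpace (Cm n') U'] [T2Space U']
  [IsManifold 𝓘(ℂ, Cm n') ω U'] [TopologicalSpace U''] [ChartedSpace (Cm n'') U''] [T2Space U'']
  [IsManifold 𝓘(ℂ, Cm n'') ω U''] {c : Cp n U} {c' : Cp n' U'} {c'' : Cp n'' U''} {Φ : Filter U}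
  {Φ' : Filter U'} {Φ'' : Filter U''} {M M₁ : Mk c Φ} {M' : Mk c' Φ'} {M'' : Mk c'' Φ''}
  {f : U' → U} {g : U'' → U'} {h : Al c Φ} {h' : Al c' Φ'} {a : SF n U}

/-- extension by zero into the column `0` -/
def Mk.em (M : Mk c Φ) : SF n U →ₗ[ℂ] M.K.T := ext0 M.cln ∘ₗ M.oe.ext

theorem Mk.em_apply (M : Mk c Φ) (a : SF n U) : M.em a = ext0 M.cln (M.oe.ext a) := rfl

theorem Mk.ext_off (M : Mk c Φ) (ha : a ∈ Ac n univ) : M.oe.ext a ∈ Ac n (P281Z.off M.G) :=
  Ac_mono (by rintro _ ⟨x, -, rfl⟩; exact M.off x) (M.oe.ext_Ac ha)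

theorem Mk.D_em (M : Mk c Φ) (ha : a ∈ Ac n univ) : M.K.tri.D (M.em a) = M.em (dd _ _ a) := by
  rw [M.em_apply, D_ext0 (M.ext_off ha), M.em_apply, M.oe.ext_dd ha]

theorem Mk.tend {F : M'.Y.X → M.Y.X} (k : Continuous F)
    (e : ∀ x, F (M'.j x) = M.j (f x)) {y : M'.Y.X} {x : U} (hy : F y = M.j x) :
    Tendsto f (comap M'.j (𝓝 y)) (𝓝 x) := by
  rw [M.opn.isInducing.tendsto_nhds_iff, ← hy, show M.j ∘ f = F ∘ M'.j from (funext e).symm]
  exact k.continuousAt.tendsto.comp tendsto_comap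

theorem Mk.eq_of {y : M'.Y.X} {x : U'} (k : ClusterPt x (comap M'.j (𝓝 y))) :
    M'.j x = y :=
  eq_of_nhds_neBot (k.map M'.opn.continuous.continuousAt tendsto_comap)

/-- over a proper map, the boundary is mapped to the boundary -/
theorem Mk.Gen.proper (b : M'.Gen) (hp : IsProperMap f) {F : M'.Y.X → M.Y.X} (k : Continuous F)
    (e : ∀ x, F (M'.j x) = M.j (f x)) {y : M'.Y.X} {x : U} (hy : F y = M.j x) :
    ∃ x', M'.j x' = y := by
  have := b.neBot y
  obtain ⟨x', -, a⟩ := hp.clusterPt_of_mapClusterPt (Mk.tend k e hy).mapClusterPt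
  exact ⟨x', Mk.eq_of a⟩

theorem Mk.Gen.inducing (b : M'.Gen) (hp : IsInducing f) {F : M'.Y.X → M.Y.X} (k : Continuous F)
    (e : ∀ x, F (M'.j x) = M.j (f x)) {y : M'.Y.X} {x : U'} (hy : F y = M.j (f x)) :
    M'.j x = y := by
  have := b.neBot y
  exact Mk.eq_of (Tendsto.mapClusterPt (u := id) (hp.tendsto_nhds_iff.2 (Mk.tend k e hy)))

theorem Ov.pb_ext {F φ} (k : Ov M' M f F φ) (b : M'.Gen) (hp : IsProperMap f) (hf : Smo n' n f)
    (ha : a ∈ Ac n univ) : pb (smo_of k.hol) (M.oe.ext a) = M'.oe.ext (pb hf a) := by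
  refine (M'.oe.ext_eq (fun y hy => pb_ZP _ (M.oe.ext_rg ha _ fun ⟨x, e⟩ =>
    hy (b.proper hp k.hol.cont k.eq e.symm))) ?_).symm
  rw [k.pb_j hf, M.oe.pb_ext ha]

theorem Ov.up_em {F φ} (k : Ov M' M f F φ) (b : M'.Gen) (hp : IsProperMap f) (hf : Smo n' n f)
    (ha : a ∈ Ac n univ) : up M' M F φ (M.em a) = M'.em (pb hf a) := by
  rw [M.em_apply, k.up_ext0, k.pb_ext b hp hf ha, M'.em_apply]

theorem Ov.up_em_id {F φ} (k : Ov M₁ M (fun x => x) F φ) (b : M₁.Gen) (ha : a ∈ Ac n univ) :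
    up M₁ M F φ (M.em a) = M₁.em a :=
  (k.up_em b isProperMap_id Pb1H.smo_id ha).trans (congrArg _ (P275MC.pb_id a))

variable (h) in
/-- **forms with compact support in the strict model** -/
def io : Ac n (univ : Set U) →ₗ[ℂ] TT h := of h h.some ∘ₗ (Nonempty.some h).em.domRestrict _

theorem io_eq (M : Mk c Φ) (a : Ac n (univ : Set U)) : io h a = of h M (M.em a) := by
  obtain ⟨M₁, _, _, _, _, b, k, k₁⟩ := ex_dir h.some M
  rw [← of_up h k₁, k₁.up_em_id b a.2, ← k.up_em_id b a.2, of_up h k]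
  rfl

theorem io_D (a : Ac n (univ : Set U)) : (tri h).D (io h a) = io h (dc n univ a) := by
  rw [io_eq h.some, (str_of h _).D, Mk.D_em _ a.2, io_eq h.some]
  rfl

theorem io_δ (a : Ac n (univ : Set U)) : (tri h).δ (io h a) = 0 := by
  rw [io_eq h.some, (str_of h _).δ]
  refine (congrArg _ ((arr_top _).δ_e0 (V := univ) (arr_ok _) ?_)).trans (map_zero _)
  rw [← compl_eq_univ_sdiff, ← P275AR.off_eq]
  exact Mk.ext_off _ a.2

theorem Mk.gl_em (M : Mk c Φ) (ha : a ∈ Ac n univ) (e : ℕ → ℕ → ℂ) :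
    M.K.gl (fun I => e I.card) (M.em a) = M.em (P275AR.gl _ _ (e 0) a) := by
  have : M.oe.ext (P275AR.gl _ _ (e 0) a) = P275AR.gl _ _ (e 0) (M.oe.ext a) :=
    M.oe.ext_eq (op_Sp (opr_vl _) (M.oe.ext_rg ha)) (by rw [pb_gl, M.oe.pb_ext ha])
  rw [M.em_apply, M.em_apply, this]
  refine Eq.trans (funext fun I => ?_) (Dia.Ov.gl_aug (e 0) _ _)
  by_cases k : I = ∅
  · rw [k]
    rfl
  · rw [Fam.gl_apply, Fam.gl_apply, ext0, Dia.Ov.e0_ne _ k, map_zero]
    exact ((congrArg _ (Dia.Ov.e0_ne (B := ovr M.cln) _ k)).trans (map_zero _)).symm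

theorem gl_io (e : ℕ → ℕ → ℂ) (a b : Ac n (univ : Set U))
    (k : (b : SF n U) = P275AR.gl _ _ (e 0) a) : gl h e (io h a) = io h b := by
  rw [io_eq h.some, gl_of, Mk.gl_em _ a.2, io_eq h.some, k]

theorem tri_dg (q : ℕ) (t : TT h) :
    (tri h).dg q t = gl h (fun _ j => if j = q then 1 else 0) t := by
  induction t using ind with | k M u _ =>
  rw [(str_of h M).dg, gl_of]
  rfl

theorem io_dg (q : ℕ) (a b : Ac n (univ : Set U)) (k : (b : SF n U) = pj n U q a) :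
    (tri h).dg q (io h a) = io h b :=
  (tri_dg q _).trans (gl_io _ a b (k.trans (by rw [P275AR.pj_eq'])))

/-- **compatibility with proper pull-backs** -/
theorem pull_io (hf : Mo c' Φ' c Φ f) (hp : IsProperMap f) (hs : Smo n' n f)
    (a : Ac n (univ : Set U)) (b : Ac n' (univ : Set U')) (e : (b : SF n' U') = pb hs a) :
    pull h h' f (io h a) = io h' b := by
  obtain ⟨M', -, -, F, φ, b1, -, k⟩ := hf.ex h'.some h.some
  rw [io_eq h.some, pull_of hf k, k.up_em b1 hp hs a.2, io_eq M', e]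

/-- **compatibility with exterior multiplication** -/
theorem wdT_io {η : SF n U} (k : Xt c η) (a b : Ac n (univ : Set U))
    (e : (b : SF n U) = wd η a) : wdT h η (io h a) = io h b := by
  obtain ⟨M, -, -, y, -, -, rfl⟩ := k.ex h.some
  rw [io_eq M, wdT_of rfl, io_eq M, e, M.em_apply, M.em_apply, M.oe.ext_wd a.2]
  exact congrArg _ (Dia.Ov.wd_aug y _ _)

theorem qs_ext0 {r : ℕ} {Y : Mf n} {G : Fin r → Set Y.X} (k : Cln G) :
    Qs (dc n (P281Z.off G)) (arr k).tri.D ((ext0 k).domRestrict _) :=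
  .of_bij (fun a => D_ext0 a.2) (bij_ext0 k)

theorem Mk.Gen.qs {M : Mk c (cocompact U)} (b : M.Gen) :
    Qs (dc n (univ : Set U)) M.K.tri.D (M.em.domRestrict _) :=
  have e : M.j '' univ = P281Z.off M.G := image_univ.trans b.off_eq.symm
  (qs_ext0 M.cln).comp (.of_bij (D := dc n univ) (f := M.oe.ext.restrict (Act.ext M.oe e.subset).mem)
    (fun a => Subtype.ext (M.oe.ext_dd a.2).symm) (Act.ext_bij M.oe e))

theorem nat_D (h : Al c Φ) : (sy h).Nat fun M => M.K.tri.D := fun M M₁ a k => (sy_str h M M₁ a k).D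

/-- **the strict model computes the cohomology with compact supports** -/
theorem qs_io (h : Al c (cocompact U)) : Qs (dc n (univ : Set U)) (tri h).D (io h) :=
  Sy.qs_of (nat_D h) (fun M => (str_of h M).D) (e := fun M => M.em.domRestrict _)
    (by
      rintro M M₁ _ b ⟨_, _, k, rfl⟩ a
      exact k.up_em_id b a.2)
    (fun _ => Mk.Gen.qs) io_eq

/-- the comparison with the complex of a good compactification -/
theorem ex_cmp (h : Al c (cocompact U)) : ∃ Λ : (KC c).T →ₗ[ℂ] TT h,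
    Tri.Mor (KC c).tri (tri h) 0 Λ ∧ ∀ a : Ac n (univ : Set U), Λ (P275AR.em c a) = io h a := by
  let M : Mk c (cocompact U) := mkOf (fun _ => ()) (.id c) (un_bd c) (comap_bd c.opn).symm
  choose φ hφ _ using en_sub (fun _ => ()) (un_bd c)
  let S : Sys (fam M.cln) (P275AR.fam c.snc) :=
    Sys.ov (B := fam M.cln) (A := P275AR.fam c.snc) (inc M.cln) (P275AR.inc c.snc) id
  have i := fun I => (P275AR.inc_emb c.snc I).inj
  have a1 : S.Sup (lr (mx φ)) := fun I' I k =>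
    (P275AR.inc_emb c.snc I).lift (inc_emb M.cln I').hol fun z l hl =>
      let ⟨p, hp, e⟩ := lr_ne k hl
      mx_ne e ▸ (inc_emb M.cln I').mem z p hp _ (hφ p)
  have a2 : Tri.Mor (KC c).tri M.K.tri 0 (S.act (lr (mx φ))) :=
    Dia.mor (P275AR.arr_ok _) (arr_ok _) (Sys.ov_cmp i sys_ov Sys.ov_Ov fun _ _ => rfl)
      (Sys.ov_cmp i Sys.ov_Ov P275AR.sys_ov fun _ _ => rfl) a1 (lr_c (mx_one φ))
  obtain ⟨⟨ε, e0, e1, e2, e3⟩, e4⟩ := a2
  refine ⟨of h M ∘ₗ S.act (lr (mx φ)), ⟨⟨ε, e0, fun u => ?_, fun u => ?_, fun u => ?_⟩,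
    fun q u => ?_⟩, fun a => ?_⟩
  · rw [LinearMap.comp_apply, (str_of h M).A, e1, map_smul]; rfl
  · rw [LinearMap.comp_apply, (str_of h M).B, e2, map_smul]; rfl
  · rw [LinearMap.comp_apply, (str_of h M).δ, e3, map_smul]; rfl
  · rw [LinearMap.comp_apply, (str_of h M).dg, e4]; rfl
  · rw [io_eq M]
    refine congrArg (of h M) ((Dia.Ov.act_aug (B := P275AR.ovr c.snc) (B' := ovr M.cln) (f := id)
      holM_id Sys.ov_Ov a1 _ _).trans ?_)
    exact congrArg₂ (fun k v => (ovr M.cln).aug k v) (f1a.lr_ev (mx φ)) (P275MC.pb_id _)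

/-- **the weights agree** -/
theorem grd_io (h : Al c (cocompact U)) :
    Grd (wt c) (tri_ok h).wt 0 (Coh.map (io h) (qs_io h).ch) := by
  obtain ⟨Λ, a, b⟩ := ex_cmp h
  have e : Coh.map (io h) (qs_io h).ch = Coh.map Λ a.ch ∘ₗ (P275AR.iso c : _ →ₗ[ℂ] _) :=
    LinearMap.ext fun x => by
      obtain ⟨z, hz, rfl⟩ := Coh.ind x
      exact Coh.mk_congr (b z).symm _
  rw [e]
  simpa using ((KC_ok c).grd_mor (tri_ok h) a).comp (P275AR.grd_iso c) (KC_ok c).gr_wt

end Vale.Agent.P275SM
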