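import Vale.Agent.P275AR.Cp
import Vale.Agent.P275SM.Lim

/-!
# P275, strict models: the complex of a finite family of sets with smooth intersections
-/

open scoped Manifold ContDiff Topology Matrix
open Filter Set Function
open Vale.Agent.P272.K Vale.Agent.P281Z.Hg Vale.Agent.P275MC Vale.Agent.P275FM
open Vale.Agent.P299.IX Vale.Agent.P299.IX.Fock
open Vale.Agent.P281Z (HolM Mf Emb SubM An off)
open Vale.Agent.P277Z.Slc (Snc St)
open Vale.Agent.P280Z.Pu (smo_of)
open Vale.Agent.P275AR (Fam Sys Dia dc Hc ch_dom inj_dom surj_dom epsV_ne lr_ne lr_card lr_one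
  St_insert St_empty off_eq Cmb lr_c)

set_option linter.unusedSectionVars false

noncomputable section

namespace Vale.Agent.P275SM

variable {n n' n'' r r' r'' : ℕ} {Y : Mf n} {Y' : Mf n'} {Y'' : Mf n''} {G : Fin r → Set Y.X}
  {G' : Fin r' → Set Y'.X} {G'' : Fin r'' → Set Y''.X}

/-- analytic sets whose intersections are submanifolds -/
structure Cln (G : Fin r → Set Y.X) : Prop where
  an : ∀ l, An n (G l)
  sub : ∀ I, ∃ d, SubM n d (St G I)

theorem Cln.ex (h : Cln G) (I : FI r) : ∃ d ≤ n, SubM n d (St G I) := by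
  obtain ⟨d, hd⟩ := h.sub I
  rcases (St G I).eq_empty_or_nonempty with e | ⟨x, hx⟩
  · exact ⟨0, Nat.zero_le _, fun x hx => absurd (e ▸ hx) (notMem_empty x)⟩
  · obtain ⟨c, -, e, -⟩ := hd x hx
    exact ⟨d, by omega, hd⟩

theorem Cln.St_an (h : Cln G) (I : FI r) : An n (St G I) := by
  rw [show St G I = ⋂ l : I, G l from Set.ext fun x => by simp [St]]
  exact An.iInter fun l => h.an l

theorem Cln.un_an (h : Cln G) : An n (⋃ l, G l) := An.iUnion h.an

theorem Cln.off_open (h : Cln G) : IsOpen (off G) := off_eq ▸ h.un_an.closed.isOpen_compl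

/-- strata of a divisor with simple normal crossings -/
theorem cln_St {H : Fin r' → Set Y.X} (h : Snc n H) (J : Fin r → FI r') :
    Cln fun a => St H (J a) where
  an a := (P275AR.St_subM h _).an (P275AR.St_closed h _)
  sub I := ⟨_, by
    rw [show St (fun a => St H (J a)) I = St H (I.biUnion J) from Set.ext fun x =>
      ⟨fun k l hl => let ⟨a, ha, e⟩ := Finset.mem_biUnion.1 hl; k a ha l e,
        fun k a ha l e => k l (Finset.mem_biUnion.2 ⟨a, ha, e⟩)⟩]
    exact P275AR.St_subM h _⟩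

/-- the dimension of an intersection -/
def dm (h : Cln G) (I : FI r) : ℕ := (h.ex I).choose

theorem dm_le (h : Cln G) (I : FI r) : dm h I ≤ n := (h.ex I).choose_spec.1

theorem ex_str (h : Cln G) (I : FI r) :
    ∃ (V : Mf (dm h I)) (i : V.X → Y.X), Emb (dm h I) n i (St G I) :=
  (h.ex I).choose_spec.2.emb (h.St_an I).closed.isCompact

/-- the stratum as a manifold -/
def str (h : Cln G) (I : FI r) : Mf (dm h I) := (ex_str h I).choose

/-- the inclusion of the stratum -/
def inc (h : Cln G) (I : FI r) : (str h I).X → Y.X := (ex_str h I).choose_spec.choose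

theorem inc_emb (h : Cln G) (I : FI r) : Emb (dm h I) n (inc h I) (St G I) :=
  (ex_str h I).choose_spec.choose_spec

/-- the family of the strata -/
@[reducible] def fam (h : Cln G) : Fam where
  σ := FI r
  n := dm h
  S := str h
  col := Finset.card

/-- the maps between strata which cover `f` -/
def sys (h' : Cln G') (h : Cln G) (f : Y'.X → Y.X) : Sys (fam h') (fam h) :=
  Sys.ov (B := fam h') (A := fam h) (inc h') (inc h) f

/-- the diagram of the strata -/
@[reducible] def arr (h : Cln G) : Dia where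
  toFam := fam h
  M := sys h h id
  c := epsV 1

variable {h : Cln G} {h' : Cln G'} {h'' : Cln G''} {f : Y'.X → Y.X} {g : Y''.X → Y'.X}
  {I : FI r} {I' : FI r'}

theorem sys_ov : (sys h' h f).Ov (inc h') (inc h) f := Sys.ov_Ov

theorem sys_R (hf : HolM n' n f) : (sys h' h f).R I' I ↔ MapsTo f (St G' I') (St G I) := by
  refine ⟨fun ⟨k, _, e⟩ x hx => ?_, fun k => (inc_emb h I).lift (hf.comp (inc_emb h' I').hol)
    fun z => k ((inc_emb h' I').mem z)⟩
  obtain ⟨z, rfl⟩ := (inc_emb h' I').ex hx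
  exact e z ▸ (inc_emb h I).mem _

theorem sys_cmp {k : Y''.X → Y.X} (e : ∀ x, k x = f (g x)) :
    (sys h'' h' g).Cmp (sys h' h f) (sys h'' h k) :=
  Sys.ov_cmp (fun I => (inc_emb h I).inj) sys_ov sys_ov fun _ _ => e _

/-- the pull-back from the stratum `I` to the stratum `I'` (zero if `f` does not map the second to
the first) -/
abbrev pl (h' : Cln G') (h : Cln G) (f : Y'.X → Y.X) (I' : FI r') (I : FI r) :
    (arr h).F I →ₗ[ℂ] (arr h').F I' := (sys h' h f).P I' I

theorem pl_eq {k : (str h' I').X → (str h I).X} (hk : HolM _ _ k)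
    (e : ∀ z, inc h I (k z) = f (inc h' I' z)) : pl h' h f I' I = pb (smo_of hk) :=
  Sys.ov_P (B := fam h') (A := fam h) (inc_emb h I).inj hk e

theorem sup_epsV (v : Fin r → ℂ) : (sys h h id).Sup (epsV v) := fun _ _ k => by
  obtain ⟨l, -, -, rfl⟩ := epsV_ne k
  exact (sys_R P281Z.holM_id).2 fun _ hx => (St_insert.1 hx).2

theorem arr_ok (h : Cln G) : (arr h).OK where
  cmp := sys_cmp fun _ => rfl
  sup := sup_epsV 1
  cc := epsV_sq 1
  col _ _ k := by
    obtain ⟨l, -, hl, rfl⟩ := epsV_ne k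
    exact Finset.card_insert_of_notMem hl

theorem arr_kah (h : Cln G) (k : Y.Kah) : (arr h).Kah := fun I => (inc_emb h I).kah k

/-- the strata over the manifold -/
def ovr (h : Cln G) : (arr h).Ov Y where
  p := inc h
  hol I := (inc_emb h I).hol
  ov := sys_ov

theorem act_one (u : (arr h).T) : (sys h h id).act 1 u = u := funext fun I => by
  rw [Sys.act_apply, Finset.sum_eq_single I, Matrix.one_apply_eq, one_smul]
  · exact (LinearMap.congr_fun (pl_eq (k := id) P281Z.holM_id fun _ => rfl) _).trans (pb_id _)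
  · exact fun K _ hK => by rw [Matrix.one_apply_ne hK.symm, zero_smul]
  · exact fun k => absurd (Finset.mem_univ I) k

/-- a component through `x` is a cone point -/
theorem acy {Q : Set (FI r)} {x : Y.X} {l : Fin r} (hx : x ∈ G l)
    (hQ : ∀ I, l ∉ I → insert l I ∈ Q → I ∈ Q) : (ovr h).Acy Q x where
  inj I _ _ _ e e' := (inc_emb h I).inj (e.trans e'.symm)
  ex k hk h0 := by
    refine ⟨iot l *ᵥ k, fun I hI => ?_, fun I hI => ?_⟩
    · rw [iot_mulVec]
      split_ifs with a
      · rfl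
      · rw [hk _ fun b => hI (hQ I a b), mul_zero]
    · have e := congrFun (congrArg (· *ᵥ k) (iot_epsV l 1)) I
      simp only [Matrix.add_mulVec, Pi.one_apply, one_smul, Matrix.one_mulVec, Pi.add_apply,
        ← Matrix.mulVec_mulVec] at e
      rw [iot_mulVec] at e
      refine Eq.trans ?_ e
      split_ifs with a
      · exact (zero_add _).symm
      · have := h0 (insert l I) ((inc_emb h _).rng.symm.subset
          (St_insert.2 ⟨hx, (inc_emb h I).rng.subset hI⟩))
        rw [show (epsV 1 *ᵥ k) (insert l I) = 0 from this, mul_zero, zero_add]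

theorem arr_top (h : Cln G) : (ovr h).Top (∅ : FI r) (⋃ l, G l) where
  inv := by
    obtain ⟨g, h1, h2⟩ := (inc_emb h ∅).lift P281Z.holM_id fun _ => St_empty.symm.subset trivial
    exact ⟨g, h1, h2, fun z => (inc_emb h ∅).inj (h2 _)⟩
  sub I hI z := by
    obtain ⟨l, hl⟩ := Finset.nonempty_iff_ne_empty.2 hI
    exact mem_iUnion.2 ⟨l, (inc_emb h I).mem z l hl⟩
  closed := h.un_an.closed
  acy x hx := by
    obtain ⟨l, hl⟩ := mem_iUnion.1 hx
    exact acy hl fun _ _ _ => trivial

/-- forms on the manifold placed in the column `0` -/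
def ext0 (h : Cln G) : SF n Y.X →ₗ[ℂ] (arr h).T := (ovr h).e0 (∅ : FI r)

theorem ext0_eq (a : SF n Y.X) : ext0 h a = (ovr h).aug (ev ∅) a := rfl

theorem D_ext0 {a : SF n Y.X} (ha : a ∈ Ac n (off G)) :
    (arr h).tri.D (ext0 h a) = ext0 h (dd _ _ a) :=
  (Dia.tri_D_apply _).trans ((arr_top h).D_e0 (V := univ) (arr_ok h)
    (by rwa [← compl_eq_univ_sdiff, ← off_eq]))

theorem ch_ext0 (h : Cln G) : Ch (dc n (off G)) (arr h).tri.D ((ext0 h).domRestrict _) :=
  ch_dom fun _ => D_ext0

/-- **the complex of the strata computes the cohomology with compact supports of the complement** -/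
theorem bij_ext0 (h : Cln G) : Bijective (Coh.map _ (ch_ext0 h)) := by
  have a := (arr_top h).bij' (arr_ok h)
  refine ⟨(inj_dom _).2 ?_, (surj_dom _).2 ?_⟩
  · rw [off_eq]
    exact (inj_dom _).1 a.1
  · rw [off_eq]
    exact (surj_dom _).1 a.2

section mor

variable {J : Matrix (Fin r') (Fin r) ℂ} {J' : Matrix (Fin r'') (Fin r') ℂ}

theorem cmb_sup (k : Cmb G G' f J) (hf : HolM n' n f) : (sys h' h f).Sup (lr J) := fun _ _ a =>
  (sys_R hf).2 fun _ hx _ hl =>
    let ⟨p, hp, b⟩ := lr_ne a hl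
    k p _ b (hx p hp)

/-- the pull-back by a map of pairs -/
def pul (h' : Cln G') (h : Cln G) (f : Y'.X → Y.X) (J : Matrix (Fin r') (Fin r) ℂ) :
    (arr h).T →ₗ[ℂ] (arr h').T := (sys h' h f).act (lr J)

/-- **maps of pairs induce morphisms** -/
theorem pul_mor (hf : HolM n' n f) (k : Cmb G G' f J) (e : J *ᵥ 1 = 1) :
    Tri.Mor (arr h).tri (arr h').tri 0 (pul h' h f J) :=
  Dia.mor (arr_ok h) (arr_ok h') (sys_cmp fun _ => rfl) (sys_cmp fun _ => rfl) (cmb_sup k hf) (lr_c e)

theorem pul_D (hf : HolM n' n f) (k : Cmb G G' f J) (e : J *ᵥ 1 = 1) (u : (arr h).T) :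
    (arr h').D (pul h' h f J u) = pul h' h f J ((arr h).D u) :=
  Dia.act_D (arr_ok h) (arr_ok h') (sys_cmp fun _ => rfl) (sys_cmp fun _ => rfl) (cmb_sup k hf)
    (lr_c e) u

theorem pul_ext0 (hf : HolM n' n f) (k : Cmb G G' f J) (a : SF n Y.X) :
    pul h' h f J (ext0 h a) = ext0 h' (pb (smo_of hf) a) :=
  (Dia.Ov.act_aug (B := ovr h) (B' := ovr h') hf sys_ov (cmb_sup k hf) _ a).trans
    (by rw [ext0_eq, ← f1a.lr_ev J]; rfl)

theorem pul_pul (hf : HolM n' n f) (hg : HolM n'' n' g) (k : Cmb G G' f J) (k' : Cmb G' G'' g J')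
    (u : (arr h).T) : pul h'' h' g J' (pul h' h f J u) = pul h'' h (f ∘ g) (J' * J) u := by
  have := (sys_cmp (h := h) (h' := h') (h'' := h'') (k := f ∘ g) fun _ => rfl).act
    (cmb_sup k' hg) (cmb_sup k hf) u
  rw [← f1a.lr_mul] at this
  exact this

theorem pul_id (u : (arr h).T) : pul h h id 1 u = u := by
  rw [pul, lr_one]
  exact act_one u

theorem pul_gl (a : ℕ → ℕ → ℂ) (u : (arr h).T) :
    pul h' h f J ((arr h).gl (fun I => a I.card) u) =
      (arr h').gl (fun I => a I.card) (pul h' h f J u) :=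
  Sys.act_gl (M := sys h' h f) (c := lr J) (a := fun I => a I.card) (b := fun I => a I.card)
    (fun _ _ k => congrArg a (lr_card k).symm) u

theorem pul_Kc {V : Set Y.X} {u : (arr h).T} (hu : u ∈ (ovr h).Kc V) :
    pul h' h f J u ∈ (ovr h').Kc (f ⁻¹' V) := Dia.Ov.act_Kc sys_ov hu

theorem pul_wd (hf : HolM n' n f) (y : SF n Y.X) (u : (arr h).T) :
    pul h' h f J ((ovr h).wd y u) = (ovr h').wd (pb (smo_of hf) y) (pul h' h f J u) :=
  Dia.Ov.act_wd (B := ovr h) (B' := ovr h') hf sys_ov y u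

theorem pul_str (hf : HolM n' n f) (k : Cmb G G' f J) (e : J *ᵥ 1 = 1) :
    Str (arr h).tri (arr h').tri (pul h' h f J) := by
  have a : ∀ u, (arr h').tri.A (pul h' h f J u) = pul h' h f J ((arr h).tri.A u) :=
    fun u => (Sys.act_del u).symm
  have b : ∀ u, (arr h').tri.B (pul h' h f J u) = pul h' h f J ((arr h).tri.B u) := fun u => by
    change (arr h').d _ - (arr h').del _ = pul h' h f J ((arr h).d u - (arr h).del u)
    rw [map_sub]
    exact congrArg₂ _ (Sys.act_d u).symm (Sys.act_del u).symm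
  refine ⟨a, b, fun u => ?_, fun q u => (Sys.act_dg q u).symm⟩
  have := pul_D (h := h) (h' := h') hf k e u
  rw [← Dia.tri_D, ← Dia.tri_D, Tri.D_apply, Tri.D_apply, a, b, map_add, map_add] at this
  exact add_left_cancel this

theorem arr_lt (h : Cln G) (u : (arr h).T) : u ∈ (arr h).tri.lt (n + n + 1) := fun q hq =>
  (Fam.gl_congr u (c' := fun _ _ => 0) fun I j hj => if_neg (by
    have := dm_le h I
    change j ≤ dm h I + dm h I at hj
    omega)).trans ((Fam.gl_const u 0).trans (zero_smul _ _))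

end mor

end Vale.Agent.P275SM
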