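import Vale.Agent.P275SM.Cln
import Vale.Agent.P275RG.Prin

/-!
# P275, strict models: marked compactifications
-/

open scoped Manifold ContDiff Topology
open Filter Set Function Topology
open Vale.Agent.P272.K (Cm)
open Vale.Agent.P299.IX (FI)
open Vale.Agent.P281Z (HolM Mf Emb An off holM_id)
open Vale.Agent.P277Z.Slc (St)
open Vale.Agent.P275RG

set_option linter.unusedSectionVars false

noncomputable section

namespace Vale.Agent.P275SM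

variable {n n' n'' : ℕ} {U U' U'' : Type} [TopologicalSpace U] [ChartedSpace (Cm n) U]
  [IsManifold 𝓘(ℂ, Cm n) ω U] [TopologicalSpace U'] [ChartedSpace (Cm n') U']
  [IsManifold 𝓘(ℂ, Cm n') ω U'] [TopologicalSpace U''] [ChartedSpace (Cm n'') U'']
  [IsManifold 𝓘(ℂ, Cm n'') ω U'']

/-- A compact Kaehler manifold which contains `U`; the part of the boundary given by the filter `Φ`
is covered by the sets `G a`, and the points of `L a` carry the label `a`. -/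
structure Mk (c : Cp n U) (Φ : Filter U) : Type 1 where
  Y : Mf n
  kah : Y.Kah
  j : U → Y.X
  r : ℕ
  G : Fin r → Set Y.X
  L : Fin r → Set Y.X
  emb : Emb n n j (range j)
  alg : Alg c (.self Y kah) j
  cln : Cln G
  off : ∀ x a, j x ∉ G a
  sub : ∀ a, L a ⊆ G a
  cov : ∀ a, ∀ y ∈ G a, ∃ b, y ∈ L b
  dis : ∀ a b y, y ∈ L a → y ∈ L b → a = b
  fil : Φ = comap j (𝓝ˢ (⋃ a, G a))

variable {c : Cp n U} {c' : Cp n' U'} {c'' : Cp n'' U''} {Φ : Filter U} {Φ' : Filter U'}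
  {Φ'' : Filter U''} {M : Mk c Φ} {M' : Mk c' Φ'} {M'' : Mk c'' Φ''} {f : U' → U} {g : U'' → U'}

/-- generic objects -/
structure Mk.Gen (M : Mk c Φ) : Prop where
  dense : DenseRange M.j
  ne : ∀ a, (M.L a).Nonempty

/-- morphisms over `f` -/
structure Ov (M' : Mk c' Φ') (M : Mk c Φ) (f : U' → U) (F : M'.Y.X → M.Y.X)
    (φ : Fin M'.r → Fin M.r) : Prop where
  hol : HolM n' n F
  eq : ∀ x, F (M'.j x) = M.j (f x)
  L : ∀ a, MapsTo F (M'.L a) (M.L (φ a))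
  G : ∀ a, MapsTo F (M'.G a) (M.G (φ a))

theorem Ov.id (M : Mk c Φ) : Ov M M (fun x => x) id id :=
  ⟨holM_id, fun _ => rfl, fun _ => mapsTo_id _, fun _ => mapsTo_id _⟩

theorem Ov.comp {F φ F' φ'} (k : Ov M' M f F φ) (k' : Ov M'' M' g F' φ') :
    Ov M'' M (fun x => f (g x)) (F ∘ F') (φ ∘ φ') :=
  ⟨k.hol.comp k'.hol, fun x => (congrArg F (k'.eq x)).trans (k.eq _),
    fun a => (k.L _).comp (k'.L a), fun a => (k.G _).comp (k'.G a)⟩

theorem Mk.Gen.uniq (h : M.Gen) {m : ℕ} {S : Mf m} {F F₂ : M.Y.X → S.X} (k : HolM n m F)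
    (k₂ : HolM n m F₂) (e : ∀ x, F (M.j x) = F₂ (M.j x)) : F = F₂ :=
  h.dense.equalizer k.cont k₂.cont (funext e)

theorem Ov.uniq (h : M'.Gen) {F φ F₂ φ₂} (k : Ov M' M f F φ) (k₂ : Ov M' M f F₂ φ₂) :
    F = F₂ ∧ φ = φ₂ := by
  have e := h.uniq k.hol k₂.hol fun x => (k.eq x).trans (k₂.eq x).symm
  subst e
  refine ⟨rfl, funext fun a => ?_⟩
  obtain ⟨y, hy⟩ := h.ne a
  exact M.dis _ _ _ (k.L a hy) (k₂.L a hy)

theorem Mk.opn (M : Mk c Φ) : IsOpenEmbedding M.j := emb_open M.emb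

theorem Mk.closed (M : Mk c Φ) : IsClosed (⋃ a, M.G a) := M.cln.un_an.closed

open Classical in
/-- the label of a point -/
def Mk.lab (M : Mk c Φ) (y : M.Y.X) : Option (Fin M.r) :=
  if h : ∃ a, y ∈ M.L a then some h.choose else none

theorem Mk.lab_eq {y : M.Y.X} {a : Fin M.r} : M.lab y = some a ↔ y ∈ M.L a := by
  unfold Mk.lab
  split_ifs with h
  · exact ⟨fun e => Option.some.inj e ▸ h.choose_spec,
      fun e => congrArg some (M.dis _ _ _ h.choose_spec e)⟩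
  · exact ⟨fun e => absurd e (by simp), fun e => absurd ⟨a, e⟩ h⟩

/-- limits along the filter lie in the marked part of the boundary -/
theorem Mk.mem_of (M : Mk c Φ) {α : Type} {l : Filter α} [l.NeBot] {u : α → U} {y : M.Y.X}
    (h1 : Tendsto u l Φ) (h2 : Tendsto (fun t => M.j (u t)) l (𝓝 y)) : ∃ a, y ∈ M.G a := by
  by_contra k
  rw [M.fil, tendsto_comap_iff] at h1
  have d := (M.closed.isCompact.disjoint_nhdsSet_left (l := 𝓝 y)).2 fun z hz =>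
    disjoint_nhds_nhds.2 fun e => k (mem_iUnion.1 (e ▸ hz))
  exact (h1.not_tendsto d) h2

theorem Mk.le_of (M : Mk c Φ) {y : M.Y.X} {a : Fin M.r} (h : y ∈ M.G a) :
    comap M.j (𝓝 y) ≤ Φ :=
  (comap_mono (nhds_le_nhdsSet (mem_iUnion.2 ⟨a, h⟩))).trans M.fil.ge

theorem Mk.Gen.neBot (h : M.Gen) (y : M.Y.X) : (comap M.j (𝓝 y)).NeBot :=
  comap_neBot fun _ ht => h.dense.mem_nhds ht

/-- the marked part of the boundary is mapped to the marked part -/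
theorem Mk.Gen.maps (h : M'.Gen) (hf : Tendsto f Φ' Φ) {F : M'.Y.X → M.Y.X} (k : Continuous F)
    (e : ∀ x, F (M'.j x) = M.j (f x)) {y : M'.Y.X} {a : Fin M'.r} (hy : y ∈ M'.G a) :
    ∃ b, F y ∈ M.G b := by
  have := h.neBot y
  refine M.mem_of (l := comap M'.j (𝓝 y)) (hf.mono_left (M'.le_of hy)) ?_
  simp only [← e]
  exact k.continuousAt.tendsto.comp tendsto_comap

theorem comap_pre {X Y : Type} [TopologicalSpace X] [TopologicalSpace Y] [CompactSpace X]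
    [T2Space Y] {p : X → Y} (hp : Continuous p) (S : Set Y) : comap p (𝓝ˢ S) = 𝓝ˢ (p ⁻¹' S) :=
  hp.isClosedMap.comap_nhdsSet_eq hp S

section mk

variable (c₁ : Cp n U) (S : Set c₁.Y.X) {σ : Type} [Finite σ] (t : c₁.Y.X → σ)

open Classical in
/-- the type of a point -/
def tp (y : c₁.Y.X) : FI c₁.r × σ := (Finset.univ.filter fun l => y ∈ c₁.G l, t y)

theorem mem_tp {y : c₁.Y.X} {l : Fin c₁.r} : l ∈ (tp c₁ t y).1 ↔ y ∈ c₁.G l := by simp [tp]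

/-- an enumeration of the types -/
def en : Fin (Nat.card (tp c₁ t '' S)) ≃ tp c₁ t '' S := (Finite.equivFin _).symm

variable {c₁ S} (h : Alg c c₁ fun x => x) (hS : c₁.Un S) (e : Φ = comap c₁.j (𝓝ˢ S))

include hS in
theorem en_sub (a : Fin (Nat.card (tp c₁ t '' S))) :
    ∃ l ∈ (en c₁ S t a).1.1, c₁.G l ⊆ S := by
  obtain ⟨y, hy, k⟩ := (en c₁ S t a).2
  obtain ⟨l, h1, h2⟩ := hS y hy
  exact ⟨l, k ▸ (mem_tp c₁ t).2 h1, h2⟩

/-- the marking by the strata -/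
def mkOf : Mk c Φ where
  Y := c₁.Y
  kah := c₁.kah
  j := c₁.j
  r := Nat.card (tp c₁ t '' S)
  G a := St c₁.G (en c₁ S t a).1.1
  L a := {y | y ∈ S ∧ tp c₁ t y = en c₁ S t a}
  emb := ⟨c₁.hol, c₁.inj, c₁.emb.imm, rfl⟩
  alg := c₁.ext_self.alg.comp h
  cln := cln_St c₁.snc _
  off x a k := let ⟨l, h1, _⟩ := en_sub t hS a; c₁.mem x l (k l h1)
  sub a y hy l hl := (mem_tp c₁ t).1 (hy.2 ▸ hl)
  cov a y hy :=
    let ⟨l, h1, h2⟩ := en_sub t hS a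
    ⟨(en c₁ S t).symm ⟨_, y, h2 (hy l h1), rfl⟩, h2 (hy l h1), by rw [Equiv.apply_symm_apply]⟩
  dis a b y ha hb := (en c₁ S t).injective (Subtype.ext (ha.2.symm.trans hb.2))
  fil := by
    rw [e]
    congr 2
    refine Set.ext fun y => ⟨fun hy => mem_iUnion.2 ⟨(en c₁ S t).symm ⟨_, y, hy, rfl⟩, ?_⟩,
      fun hy => ?_⟩
    · rw [Equiv.apply_symm_apply]
      exact fun l => (mem_tp c₁ t).1
    · obtain ⟨a, ha⟩ := mem_iUnion.1 hy
      obtain ⟨l, h1, h2⟩ := en_sub t hS a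
      exact h2 (ha l h1)

theorem mkOf_gen : (mkOf t h hS e).Gen :=
  ⟨c₁.dense, fun a => let ⟨y, h1, h2⟩ := (en c₁ S t a).2; ⟨y, h1, h2⟩⟩

theorem mkOf_t {a} {y y' : c₁.Y.X} (k : y ∈ (mkOf t h hS e).L a) (k' : y' ∈ (mkOf t h hS e).L a) :
    t y = t y' := congrArg Prod.snd (k.2.trans k'.2.symm)

theorem mkOf_G {a} {y : c₁.Y.X} (k : y ∈ (mkOf t h hS e).L a) {B : Set c₁.Y.X} (hB : c₁.Un B)
    (hy : y ∈ B) : (mkOf t h hS e).G a ⊆ B := fun _ hz =>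
  let ⟨l, h1, h2⟩ := hB y hy
  h2 (hz l (k.2 ▸ (mem_tp c₁ t).2 h1))

end mk

theorem un_iUnion {ι : Type} {B : ι → Set c.Y.X} (h : ∀ a, c.Un (B a)) : c.Un (⋃ a, B a) :=
  fun y hy =>
    let ⟨a, ha⟩ := mem_iUnion.1 hy
    let ⟨l, h1, h2⟩ := h a y ha
    ⟨l, h1, h2.trans (subset_iUnion B a)⟩

/-- labels from types -/
theorem ex_lab (h : M'.Gen) {F : M'.Y.X → M.Y.X} (h1 : ∀ a, ∀ y ∈ M'.L a, ∃ b, F y ∈ M.G b)
    (h2 : ∀ a, ∀ y ∈ M'.L a, ∀ y' ∈ M'.L a, M.lab (F y) = M.lab (F y'))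
    (h3 : ∀ a b, ∀ y ∈ M'.L a, F y ∈ M.G b → MapsTo F (M'.G a) (M.G b)) :
    ∃ φ : Fin M'.r → Fin M.r, (∀ a, MapsTo F (M'.L a) (M.L (φ a))) ∧
      ∀ a, MapsTo F (M'.G a) (M.G (φ a)) := by
  choose y hy using h.ne
  choose b hb using fun a => h1 a _ (hy a)
  choose φ hφ using fun a => M.cov _ _ (hb a)
  exact ⟨φ, fun a z hz => Mk.lab_eq.1 ((h2 a z hz _ (hy a)).trans (Mk.lab_eq.2 (hφ a))),
    fun a => h3 a _ _ (hy a) (M.sub _ (hφ a))⟩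

/-- two algebraic maps to compact manifolds and finitely many analytic sets -/
theorem ex_two {m m' s s' : ℕ} {S : Mf m} {S' : Mf m'} {hS : S.Kah} {hS' : S'.Kah} {u : U → S.X}
    {u' : U → S'.X} (hu : Alg c (.self S hS) u) (hu' : Alg c (.self S' hS') u')
    {B : Fin s → Set S.X} {B' : Fin s' → Set S'.X} (hB : ∀ a, An m (B a)) (hB' : ∀ a, An m' (B' a))
    (k : ∀ x a, u x ∉ B a) (k' : ∀ x a, u' x ∉ B' a) :
    ∃ (c₁ : Cp n U) (F : c₁.Y.X → S.X) (F' : c₁.Y.X → S'.X), Alg c c₁ (fun x => x) ∧ HolM n m F ∧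
      HolM n m' F' ∧ (∀ x, F (c₁.j x) = u x) ∧ (∀ x, F' (c₁.j x) = u' x) ∧
      (∀ a, c₁.Un (F ⁻¹' B a)) ∧ ∀ a, c₁.Un (F' ⁻¹' B' a) := by
  obtain ⟨c₁, p₁, F₁, a1, a2⟩ := hu.ext
  obtain ⟨c₂, p₂, F₂, b1, b2⟩ := (hu'.comp a1.alg).ext
  have a3 := a2.comp b1
  obtain ⟨c₃, p₃, d1, d2⟩ := c₂.prin_fin
    (B := Sum.elim (fun a => (fun y => F₁ (p₂ y)) ⁻¹' B a) fun a => F₂ ⁻¹' B' a)
    (Sum.rec (fun a => (hB a).pre a3.hol) fun a => (hB' a).pre b2.hol)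
    (Sum.rec (fun a y hy hz => by
        obtain ⟨x, rfl⟩ := c₂.ex hz
        exact k x a ((show F₁ (p₂ (c₂.j x)) = u x from a3.eq x) ▸ hy))
      fun a y hy hz => by
        obtain ⟨x, rfl⟩ := c₂.ex hz
        exact k' x a ((show F₂ (c₂.j x) = u' x from b2.eq x) ▸ hy))
  exact ⟨c₃, _, _, ((a1.comp b1).comp d1).alg.symm, (a3.comp d1).hol, (b2.comp d1).hol,
    (a3.comp d1).eq, (b2.comp d1).eq, fun a => d2 (.inl a), fun a => d2 (.inr a)⟩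

/-- **refinement** -/
theorem Mk.refine (M₀ : Mk c Φ) {m s : ℕ} {S : Mf m} {hS : S.Kah} {u : U → S.X}
    (hu : Alg c (.self S hS) u) {B : Fin s → Set S.X} (hB : ∀ a, An m (B a))
    (k : ∀ x a, u x ∉ B a) {σ : Type} [Finite σ] (t : S.X → σ) :
    ∃ (M : Mk c Φ) (p : M.Y.X → M₀.Y.X) (φ : Fin M.r → Fin M₀.r) (F : M.Y.X → S.X), M.Gen ∧
      Ov M M₀ (fun x => x) p φ ∧ HolM n m F ∧ (∀ x, F (M.j x) = u x) ∧
      (∀ a, ∀ y ∈ M.L a, ∀ y' ∈ M.L a, t (F y) = t (F y')) ∧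
      ∀ a b, ∀ y ∈ M.L a, F y ∈ B b → MapsTo F (M.G a) (B b) := by
  obtain ⟨c₁, p, F, a1, a2, a3, a4, a5, a6, a7⟩ := ex_two M₀.alg hu M₀.cln.an hB M₀.off k
  have b1 : c₁.Un (p ⁻¹' ⋃ a, M₀.G a) := by
    rw [preimage_iUnion]
    exact un_iUnion a6
  have b2 : Φ = comap c₁.j (𝓝ˢ (p ⁻¹' ⋃ a, M₀.G a)) := by
    rw [← comap_pre a2.cont, comap_comap, show p ∘ c₁.j = M₀.j from funext a4]
    exact M₀.fil
  let t' := fun y => (M₀.lab (p y), t (F y))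
  obtain ⟨φ, h1, h2⟩ := ex_lab (M := M₀) (mkOf_gen t' a1 b1 b2) (F := p)
    (fun _ _ hy => mem_iUnion.1 hy.1)
    (fun _ _ hy _ hy' => congrArg Prod.fst (mkOf_t t' a1 b1 b2 hy hy'))
    fun _ b _ hy hb => mkOf_G t' a1 b1 b2 hy (a6 b) hb
  exact ⟨mkOf t' a1 b1 b2, p, φ, F, mkOf_gen _ _ _ _, ⟨a2, a4, h1, h2⟩, a3, a5,
    fun _ _ hy _ hy' => congrArg Prod.snd (mkOf_t t' a1 b1 b2 hy hy'),
    fun _ b _ hy hb => mkOf_G t' a1 b1 b2 hy (a7 b) hb⟩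

/-- algebraic maps which are compatible with the filters -/
structure Mo (c' : Cp n' U') (Φ' : Filter U') (c : Cp n U) (Φ : Filter U) (f : U' → U) : Prop where
  alg : Alg c' c f
  tend : Tendsto f Φ' Φ

theorem Mo.id : Mo c Φ c Φ fun x => x := ⟨.id c, tendsto_id⟩

theorem Mo.comp (k : Mo c' Φ' c Φ f) (k' : Mo c'' Φ'' c' Φ' g) : Mo c'' Φ'' c Φ fun x => f (g x) :=
  ⟨k.alg.comp k'.alg, k.tend.comp k'.tend⟩

/-- **existence of morphisms** -/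
theorem Mo.ex (hf : Mo c' Φ' c Φ f) (M₀ : Mk c' Φ') (M : Mk c Φ) :
    ∃ (M' : Mk c' Φ') (p : M'.Y.X → M₀.Y.X) (ψ : Fin M'.r → Fin M₀.r) (F : M'.Y.X → M.Y.X)
      (φ : Fin M'.r → Fin M.r), M'.Gen ∧ Ov M' M₀ (fun x => x) p ψ ∧ Ov M' M f F φ := by
  obtain ⟨M', p, ψ, F, a1, a2, a3, a4, a5, a6⟩ :=
    M₀.refine (M.alg.comp hf.alg) M.cln.an (fun x => M.off (f x)) M.lab
  obtain ⟨φ, h1, h2⟩ := ex_lab a1 (fun a y hy => a1.maps hf.tend a3.cont a4 (M'.sub a hy)) a5 a6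
  exact ⟨M', p, ψ, F, φ, a1, a2, a3, a4, h1, h2⟩

/-- maps to compact manifolds extend -/
theorem Mk.ex_ext (M₀ : Mk c Φ) {m : ℕ} {S : Mf m} {hS : S.Kah} {u : U → S.X}
    (hu : Alg c (.self S hS) u) :
    ∃ (M : Mk c Φ) (p : M.Y.X → M₀.Y.X) (φ : Fin M.r → Fin M₀.r) (F : M.Y.X → S.X), M.Gen ∧
      Ov M M₀ (fun x => x) p φ ∧ HolM n m F ∧ ∀ x, F (M.j x) = u x :=
  let ⟨M, p, φ, F, a1, a2, a3, a4, _⟩ := M₀.refine hu (B := Fin.elim0) (fun a => a.elim0)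
    (fun _ a => a.elim0) fun _ => ()
  ⟨M, p, φ, F, a1, a2, a3, a4⟩

variable (c Φ) in
/-- algebraic filters -/
def Al : Prop := Nonempty (Mk c Φ)

theorem comap_bd {X : Type} [TopologicalSpace X] [CompactSpace X] [T2Space X] {j : U → X}
    (h : IsOpenEmbedding j) : comap j (𝓝ˢ (range j)ᶜ) = cocompact U := by
  refine le_antisymm (hasBasis_cocompact.ge_iff.2 fun K hK => ?_) fun t ⟨W, h1, h2⟩ => ?_
  · refine ⟨(j '' K)ᶜ, (hK.image h.continuous).isClosed.isOpen_compl.mem_nhdsSet.2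
      (compl_subset_compl.2 (image_subset_range _ _)), fun x hx k => hx ⟨x, k, rfl⟩⟩
  · obtain ⟨V, a1, a2, a3⟩ := mem_nhdsSet_iff_exists.1 h1
    refine mem_cocompact.2 ⟨j ⁻¹' Vᶜ, h.isInducing.isCompact_preimage' a1.isClosed_compl.isCompact
      (compl_subset_comm.1 a2), fun x hx => h2 (a3 (not_not.1 hx))⟩

theorem un_bd (c : Cp n U) : c.Un (range c.j)ᶜ := fun y hy => by
  rw [c.emb.rng] at hy ⊢
  obtain ⟨l, hl⟩ := not_off.1 hy
  exact ⟨l, hl, fun z hz k => k l hz⟩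

theorem al_co (c : Cp n U) : Al c (cocompact U) :=
  ⟨mkOf (fun _ => ()) (.id c) (un_bd c) (comap_bd c.opn).symm⟩

theorem Al.comap (h : Al c Φ) (hf : Alg c' c f) : Al c' (comap f Φ) := by
  obtain ⟨M⟩ := h
  obtain ⟨c₁, F, -, a1, a2, -, a4, -, a6, -⟩ := ex_two (M.alg.comp hf) (M.alg.comp hf) M.cln.an
    M.cln.an (fun x => M.off (f x)) fun x => M.off (f x)
  refine ⟨mkOf (fun _ => ()) a1 (S := F ⁻¹' ⋃ a, M.G a) (by
    rw [preimage_iUnion]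
    exact un_iUnion a6) ?_⟩
  rw [← comap_pre a2.cont, comap_comap, show F ∘ c₁.j = M.j ∘ f from funext a4, ← comap_comap,
    ← M.fil]

theorem Mo.of_proper (h : Alg c' c f) (hp : IsProperMap f) :
    Mo c' (cocompact U') c (cocompact U) f :=
  ⟨h, hasBasis_cocompact.tendsto_right_iff.2 fun _ hK =>
    (hp.isCompact_preimage hK).compl_mem_cocompact⟩

/-- for the filter of the complements of compact sets the whole boundary is marked -/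
theorem Mk.Gen.off_eq {M : Mk c (cocompact U)} (h : M.Gen) : P281Z.off M.G = range M.j := by
  refine Set.ext fun y => ⟨fun hy => by_contra fun k => ?_, fun ⟨x, e⟩ a => e ▸ M.off x a⟩
  have := h.neBot y
  obtain ⟨a, ha⟩ := M.mem_of (l := comap M.j (𝓝 y)) (u := fun x => x)
    ((comap_mono (nhds_le_nhdsSet (s := (range M.j)ᶜ) k)).trans (comap_bd M.opn).le) tendsto_comap
  exact hy a ha

end Vale.Agent.P275SM
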