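import Vale.Agent.P275SM.Mk

/-!
# P275, strict models: a strictly functorial model of the cohomology with compact supports
-/

open scoped Manifold ContDiff Topology Matrix
open Filter Set Function Topology
open Vale.Agent.P272.K Vale.Agent.P281Z.Hg Vale.Agent.P275MC Vale.Agent.P275FM
open Vale.Agent.P281Z (HolM Mf Emb An holM_id)
open Vale.Agent.P280Z.Pu (smo_of)
open Vale.Agent.P275RG
open Vale.Agent.P275AR (Fam Sys Dia dc Hc ch_dom inj_dom surj_dom mx mx_one mx_comp mx_id cmb_mx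
  del pb_eq pb_del Act)

set_option linter.unusedSectionVars false

noncomputable section

namespace Vale.Agent.P275SM

section dense

variable {d : ℕ} {M N : Type} [TopologicalSpace M] [ChartedSpace (Cm d) M]
  [IsManifold 𝓘(ℂ, Cm d) ω M] [TopologicalSpace N] [ChartedSpace (Cm d) N]
  [IsManifold 𝓘(ℂ, Cm d) ω N] {i : M → N}

theorem zp_closed (v : SF d N) : IsClosed {y | v ∈ ZP y} :=
  isClosed_iff_frequently.2 fun y hy e he => by
    have c : ContinuousAt (fun z => vl v e (e z)) y :=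
      ((vl_isF v).sm e y he).continuousAt.comp (e.continuousAt he.2)
    refine tendsto_nhds_unique_of_frequently_eq c tendsto_const_nhds ?_
    exact (hy.and_eventually (e.open_source.mem_nhds he.2)).mono fun z k => k.1 e ⟨he.1, k.2⟩

theorem pb_inj_dense (h : OE d i) (hd : DenseRange i) : Injective (pb h.smo) :=
  (injective_iff_map_eq_zero _).2 fun v k => eq_zero_of_ZP fun y =>
    hd.induction_on y (zp_closed v) fun x => h.pb_ZP_iff.1 (k ▸ (ZP x).zero_mem)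

end dense

/-- multiplication by a form on the base, with the signs -/
theorem sgn_wd {X : Dia} {N : ℕ} {Y : Mf N} (B : X.Ov Y) {s : ℕ} {y : SF N Y.X}
    (hy : y ∈ Dg N Y.X s) (h1 : del _ _ y = 0) (h2 : dlb _ _ y = 0) (u : X.T) :
    X.tri.A (B.wd y u) = (-1 : ℂ) ^ s • B.wd y (X.tri.A u) ∧
      X.tri.B (B.wd y u) = (-1 : ℂ) ^ s • B.wd y (X.tri.B u) ∧
      X.tri.δ (B.wd y u) = (-1 : ℂ) ^ s • B.wd y (X.tri.δ u) := by
  have a : ∀ t, pr _ _ (pb (smo_of (B.hol t)) y) = (-1 : ℂ) ^ s • pb (smo_of (B.hol t)) y :=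
    fun t => by rw [← pb_pr, ← pj_eq hy, pr_pj, map_smul]
  have b : X.par (B.wd y u) = (-1 : ℂ) ^ s • B.wd y (X.par u) := funext fun t => by
    refine gr_pj.map_ext (f := (pr _ _ ∘ₗ P275MC.wd (pb (smo_of (B.hol t)) y)).toAddMonoidHom)
      (g := (((-1 : ℂ) ^ s) • (P275MC.wd (pb (smo_of (B.hol t)) y) ∘ₗ pr _ _)).toAddMonoidHom)
      (fun q v => ?_) (u t)
    change pr _ _ (P275MC.wd _ (pj _ _ q v)) = (-1 : ℂ) ^ s • P275MC.wd _ (pr _ _ (pj _ _ q v))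
    rw [← pj_wd (pb_Dg _ hy), pr_pj, pr_pj, map_smul, pj_wd (pb_Dg _ hy), smul_smul, ← pow_add,
      add_comm]
  refine ⟨funext fun t => ?_, funext fun t => ?_, ?_⟩
  · change del _ _ (P275MC.wd (pb (smo_of (B.hol t)) y) (u t)) =
      (-1 : ℂ) ^ s • P275MC.wd (pb (smo_of (B.hol t)) y) (del _ _ (u t))
    rw [del_wd, ← pb_del (B.hol t), h1, map_zero, wd_zero, zero_add, a, wd_smul]
  · change dlb _ _ (P275MC.wd (pb (smo_of (B.hol t)) y) (u t)) =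
      (-1 : ℂ) ^ s • P275MC.wd (pb (smo_of (B.hol t)) y) (dlb _ _ (u t))
    rw [dlb_wd, ← pb_dlb (B.hol t), h2, map_zero, wd_zero, zero_add, a, wd_smul]
  · change X.δ _ = _ • B.wd y (X.δ u)
    rw [Dia.δ_apply, Dia.δ_apply, b, map_smul, Dia.Ov.act_wd (f := id) contMDiff_id B.ov]
    exact congrArg (fun v => (-1 : ℂ) ^ s • B.wd v _) (pb_id y)

variable {n n' n'' : ℕ} {U U' U'' : Type} [TopologicalSpace U] [ChartedSpace (Cm n) U]
  [IsManifold 𝓘(ℂ, Cm n) ω U] [TopologicalSpace U'] [ChartedSpace (Cm n') U']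
  [IsManifold 𝓘(ℂ, Cm n') ω U'] [TopologicalSpace U''] [ChartedSpace (Cm n'') U'']
  [IsManifold 𝓘(ℂ, Cm n'') ω U''] {c : Cp n U} {c' : Cp n' U'} {c'' : Cp n'' U''} {Φ : Filter U}
  {Φ' : Filter U'} {Φ'' : Filter U''} {M M₁ : Mk c Φ} {M' : Mk c' Φ'} {M'' : Mk c'' Φ''}
  {f : U' → U} {g : U'' → U'}

/-- the diagram of a marked compactification -/
abbrev Mk.K (M : Mk c Φ) : Dia := arr M.cln

theorem Mk.ok (M : Mk c Φ) : M.K.tri.OK := (arr_ok M.cln).tri (arr_kah M.cln M.kah)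

theorem Mk.oe (M : Mk c Φ) : OE n M.j := oe_of_emb M.emb

/-- the pull-back -/
def up (M' : Mk c' Φ') (M : Mk c Φ) (F : M'.Y.X → M.Y.X) (φ : Fin M'.r → Fin M.r) :
    M.K.T →ₗ[ℂ] M'.K.T := pul M'.cln M.cln F (mx φ)

theorem Ov.str {F φ} (k : Ov M' M f F φ) : Str M.K.tri M'.K.tri (up M' M F φ) :=
  pul_str k.hol (cmb_mx k.G) (mx_one φ)

theorem Ov.up_up {F φ F' φ'} (k : Ov M' M f F φ) (k' : Ov M'' M' g F' φ') (u : M.K.T) :
    up M'' M' F' φ' (up M' M F φ u) = up M'' M (F ∘ F') (φ ∘ φ') u := by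
  rw [up, up, up, mx_comp]
  exact pul_pul k.hol k'.hol (cmb_mx k.G) (cmb_mx k'.G) u

theorem up_id (u : M.K.T) : up M M id id u = u := by
  rw [up, mx_id]
  exact pul_id u

theorem Ov.up_eq (h : M'.Gen) {F φ F₂ φ₂} (k : Ov M' M f F φ) (k₂ : Ov M' M f F₂ φ₂) :
    up M' M F φ = up M' M F₂ φ₂ := by
  obtain ⟨rfl, rfl⟩ := k.uniq h k₂
  rfl

theorem Ov.up_ext0 {F φ} (k : Ov M' M f F φ) (a : SF n M.Y.X) :
    up M' M F φ (ext0 M.cln a) = ext0 M'.cln (pb (smo_of k.hol) a) := pul_ext0 k.hol (cmb_mx k.G) a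

theorem Ov.up_wd {F φ} (k : Ov M' M f F φ) (y : SF n M.Y.X) (u : M.K.T) :
    up M' M F φ ((ovr M.cln).wd y u) = (ovr M'.cln).wd (pb (smo_of k.hol) y) (up M' M F φ u) :=
  pul_wd k.hol y u

theorem ex_dir (M M₁ : Mk c Φ) : ∃ (M₂ : Mk c Φ) (p : M₂.Y.X → M.Y.X) (φ : Fin M₂.r → Fin M.r)
    (p₁ : M₂.Y.X → M₁.Y.X) (φ₁ : Fin M₂.r → Fin M₁.r),
    M₂.Gen ∧ Ov M₂ M (fun x => x) p φ ∧ Ov M₂ M₁ (fun x => x) p₁ φ₁ := Mo.id.ex M M₁

/-- the system of the marked compactifications -/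
def sy (h : Al c Φ) : Sy fun M : Mk c Φ => M.K.T where
  H M M₁ := {a | ∃ F φ, Ov M₁ M (fun x => x) F φ ∧ a = up M₁ M F φ}
  gen := Mk.Gen
  id M := ⟨id, id, .id M, LinearMap.ext fun u => (up_id u).symm⟩
  comp := by
    rintro _ _ _ _ _ ⟨_, _, a, rfl⟩ ⟨_, _, b, rfl⟩
    exact ⟨_, _, a.comp b, LinearMap.ext (a.up_up b)⟩
  uniq := by
    rintro _ _ _ _ k ⟨_, _, a, rfl⟩ ⟨_, _, b, rfl⟩
    exact a.up_eq k b
  dir M M₁ :=
    let ⟨M₂, _, _, _, _, a, b, d⟩ := ex_dir M M₁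
    ⟨M₂, a, ⟨_, _, _, b, rfl⟩, ⟨_, _, _, d, rfl⟩⟩
  ne := h

/-- **the strict model** -/
def TT (h : Al c Φ) : Type 1 := (sy h).L

variable (h : Al c Φ) (h' : Al c' Φ') (h'' : Al c'' Φ'')

instance : AddCommGroup (TT h) := inferInstanceAs (AddCommGroup (sy h).L)

instance : Module ℂ (TT h) := inferInstanceAs (Module ℂ (sy h).L)

/-- the map to the colimit -/
def of (M : Mk c Φ) : M.K.T →ₗ[ℂ] TT h := (sy h).of M

theorem of_up {F φ} (k : Ov M₁ M (fun x => x) F φ) (u : M.K.T) :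
    of h M₁ (up M₁ M F φ u) = of h M u := Sy.of_H (S := sy h) ⟨F, φ, k, rfl⟩ u

variable {h} in
theorem ind {p : TT h → Prop} (k : ∀ M u, M.Gen → p (of h M u)) (t : TT h) : p t :=
  Sy.ind (S := sy h) k t

theorem sy_str (M M₁ : Mk c Φ) : ∀ a ∈ (sy h).H M M₁, Str M.K.tri M₁.K.tri a := by
  rintro _ ⟨_, _, k, rfl⟩
  exact k.str

/-- the three differentials -/
def tri : Tri (TT h) := Sy.tri (sy_str h)

theorem str_of (M : Mk c Φ) : Str M.K.tri (tri h) (of h M) := Sy.str_of (sy_str h) M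

/-- **the axioms hold** -/
theorem tri_ok : (tri h).OK := Sy.tri_ok (sy_str h) Mk.ok fun M => arr_lt M.cln

theorem tri_lt (t : TT h) : t ∈ (tri h).lt (n + n + 1) :=
  Sy.lt_of (sy_str h) (fun M => arr_lt M.cln) t

theorem ex_pull (hf : Mo c' Φ' c Φ f) : ∃ Λ : TT h →ₗ[ℂ] TT h', ∀ (M : Mk c Φ) (M' : Mk c' Φ') F φ,
    Ov M' M f F φ → ∀ u, Λ (of h M u) = of h' M' (up M' M F φ u) := by
  obtain ⟨Λ, k⟩ := Sy.ex_lift (S := sy h) (P := TT h')
    (fun M G => ∃ M' F φ, Ov M' M f F φ ∧ G = of h' M' ∘ₗ up M' M F φ)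
    (fun M _ => let ⟨M', _, _, F, φ, _, _, a⟩ := hf.ex h'.some M; ⟨_, M', F, φ, a, rfl⟩) (by
      rintro M M₁ _ _ _ ⟨N, F, φ, a, rfl⟩ ⟨N₁, F₁, φ₁, a₁, rfl⟩ - ⟨p, ψ, b, rfl⟩ u
      obtain ⟨N₂, _, _, _, _, d, e, e₁⟩ := ex_dir N N₁
      simp only [LinearMap.comp_apply]
      rw [← of_up h' e, ← of_up h' e₁, b.up_up a₁, (b.comp a₁).up_up e₁, a.up_up e,
        ((b.comp a₁).comp e₁).up_eq d (a.comp e)])
  exact ⟨Λ, fun M M' F φ a => k M _ ⟨M', F, φ, a, rfl⟩⟩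

open Classical in
/-- **the pull-back** -/
def pull (f : U' → U) : TT h →ₗ[ℂ] TT h' :=
  if hf : Mo c' Φ' c Φ f then (ex_pull h h' hf).choose else 0

variable {h h' h''}

theorem pull_of (hf : Mo c' Φ' c Φ f) {F φ} (k : Ov M' M f F φ) (u : M.K.T) :
    pull h h' f (of h M u) = of h' M' (up M' M F φ u) := by
  rw [pull, dif_pos hf]
  exact (ex_pull h h' hf).choose_spec M M' F φ k u

theorem pull_not (hf : ¬Mo c' Φ' c Φ f) : pull h h' f = 0 := dif_neg hf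

theorem pull_id (t : TT h) : pull h h (fun x => x) t = t :=
  ind (p := fun t => pull h h (fun x => x) t = t)
    (fun M u _ => by rw [pull_of Mo.id (.id M), up_id]) t

/-- **strict functoriality** -/
theorem pull_pull (hf : Mo c' Φ' c Φ f) (hg : Mo c'' Φ'' c' Φ' g) (t : TT h) :
    pull h' h'' g (pull h h' f t) = pull h h'' (fun x => f (g x)) t := by
  induction t using ind with | k M u _ =>
  obtain ⟨M', -, -, F, φ, -, -, a⟩ := hf.ex h'.some M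
  obtain ⟨M'', -, -, F', φ', -, -, b⟩ := hg.ex h''.some M'
  rw [pull_of hf a, pull_of hg b, pull_of (hf.comp hg) (a.comp b), a.up_up b]

theorem pull_nat {O : Module.End ℂ (TT h)} {O' : Module.End ℂ (TT h')}
    {P : ∀ M : Mk c Φ, Module.End ℂ M.K.T} {P' : ∀ M : Mk c' Φ', Module.End ℂ M.K.T}
    (e : ∀ M u, O (of h M u) = of h M (P M u)) (e' : ∀ M u, O' (of h' M u) = of h' M (P' M u))
    (k : ∀ M M' F φ, Ov M' M f F φ → ∀ u, P' M' (up M' M F φ u) = up M' M F φ (P M u)) (t : TT h) :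
    O' (pull h h' f t) = pull h h' f (O t) := by
  by_cases hf : Mo c' Φ' c Φ f
  · induction t using ind with | k M u _ =>
    obtain ⟨M', -, -, F, φ, -, -, a⟩ := hf.ex h'.some M
    rw [pull_of hf a, e, e', pull_of hf a, k M M' F φ a]
  · rw [pull_not hf]
    exact map_zero _

theorem pull_str (f : U' → U) : Str (tri h) (tri h') (pull h h' f) :=
  ⟨pull_nat (fun M => (str_of h M).A) (fun M => (str_of h' M).A) fun _ _ _ _ a => a.str.A,
    pull_nat (fun M => (str_of h M).B) (fun M => (str_of h' M).B) fun _ _ _ _ a => a.str.B,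
    pull_nat (fun M => (str_of h M).δ) (fun M => (str_of h' M).δ) fun _ _ _ _ a => a.str.δ,
    fun q => pull_nat (fun M => (str_of h M).dg q) (fun M => (str_of h' M).dg q)
      fun _ _ _ _ a => a.str.dg q⟩

/-! ### Functions of the column and the degree -/

theorem nat_gl (h : Al c Φ) (a : ℕ → ℕ → ℂ) : (sy h).Nat fun M => M.K.gl fun I => a I.card := by
  rintro _ _ _ ⟨_, _, -, rfl⟩ u
  exact (pul_gl a u).symm

/-- multiplication by `a p q` in the column `p` and the form degree `q` -/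
def gl (h : Al c Φ) (a : ℕ → ℕ → ℂ) : Module.End ℂ (TT h) := (nat_gl h a).op

theorem gl_of (a : ℕ → ℕ → ℂ) (M : Mk c Φ) (u : M.K.T) :
    gl h a (of h M u) = of h M (M.K.gl (fun I => a I.card) u) := (nat_gl h a).op_of M u

theorem pull_gl (a : ℕ → ℕ → ℂ) (f : U' → U) (t : TT h) :
    gl h' a (pull h h' f t) = pull h h' f (gl h a t) :=
  pull_nat (gl_of a) (gl_of a) (fun _ _ _ _ _ u => (pul_gl a u).symm) t

/-! ### Exterior multiplication -/

variable (c) in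
/-- forms which come from a compact manifold -/
def Xt (η : SF n U) : Prop := ∃ (m : ℕ) (S : Mf m) (hS : S.Kah) (u : U → S.X)
  (hu : Alg c (.self S hS) u) (y : SF m S.X), η = pb (smo_of hu.hol) y

variable {η : SF n U}

theorem Ov.pb_j {F φ} (k : Ov M' M f F φ) (hf : Smo n' n f) (y : SF n M.Y.X) :
    pb M'.oe.smo (pb (smo_of k.hol) y) = pb hf (pb M.oe.smo y) := by
  rw [← pb_comp, ← pb_comp]
  exact pb_eq _ _ k.eq y

theorem Xt.ex (k : Xt c η) (M : Mk c Φ) : ∃ (M₁ : Mk c Φ) (p : M₁.Y.X → M.Y.X)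
    (φ : Fin M₁.r → Fin M.r) (y : SF n M₁.Y.X),
    M₁.Gen ∧ Ov M₁ M (fun x => x) p φ ∧ pb M₁.oe.smo y = η := by
  obtain ⟨m, S, hS, u, hu, y, rfl⟩ := k
  obtain ⟨M₁, p, φ, F, a1, a2, a3, a4⟩ := M.ex_ext hu
  refine ⟨M₁, p, φ, pb (smo_of a3) y, a1, a2, ?_⟩
  rw [← pb_comp]
  exact pb_eq _ _ a4 y

theorem Xt.pb (k : Xt c η) (hf : Alg c' c f) (hs : Smo n' n f) : Xt c' (pb hs η) := by
  obtain ⟨m, S, hS, u, hu, y, rfl⟩ := k
  exact ⟨m, S, hS, _, hu.comp hf, y, (pb_comp _ _ y).symm⟩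

theorem Ov.pb_id {F φ} (k : Ov M₁ M (fun x => x) F φ) (y : SF n M.Y.X) :
    pb M₁.oe.smo (pb (smo_of k.hol) y) = pb M.oe.smo y :=
  (k.pb_j Pb1H.smo_id y).trans (P275MC.pb_id _)

theorem ex_wd (h : Al c Φ) (k : Xt c η) : ∃ Λ : Module.End ℂ (TT h), ∀ (M : Mk c Φ) y,
    pb M.oe.smo y = η → ∀ u, Λ (of h M u) = of h M ((ovr M.cln).wd y u) := by
  obtain ⟨Λ, k⟩ := Sy.ex_lift (S := sy h) (P := TT h)
    (fun M G => ∃ M₁ F φ y, Ov M₁ M (fun x => x) F φ ∧ pb M₁.oe.smo y = η ∧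
      G = of h M₁ ∘ₗ (ovr M₁.cln).wd y ∘ₗ up M₁ M F φ)
    (fun M _ => let ⟨M₁, F, φ, y, _, a, b⟩ := k.ex M; ⟨_, M₁, F, φ, y, a, b, rfl⟩) (by
      rintro M M₁ _ _ _ ⟨N, F, φ, y, a, hy, rfl⟩ ⟨N₁, F₁, φ₁, y₁, a₁, hy₁, rfl⟩ - ⟨p, ψ, b, rfl⟩ u
      obtain ⟨N₂, _, _, _, _, d, e, e₁⟩ := ex_dir N N₁
      simp only [LinearMap.comp_apply]
      rw [← of_up h e, ← of_up h e₁, e.up_wd, e₁.up_wd, b.up_up a₁, (b.comp a₁).up_up e₁, a.up_up e,
        ((b.comp a₁).comp e₁).up_eq d (a.comp e),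
        pb_inj_dense N₂.oe d.dense ((e.pb_id y).trans (hy.trans (hy₁.symm.trans (e₁.pb_id y₁).symm)))])
  exact ⟨Λ, fun M y a u => (k M _ ⟨M, id, id, y, .id M, a, rfl⟩ u).trans
    (congrArg (fun v => of h M ((ovr M.cln).wd y v)) (up_id u))⟩

open Classical in
/-- **exterior multiplication** -/
def wdT (h : Al c Φ) (η : SF n U) : Module.End ℂ (TT h) :=
  if k : Xt c η then (ex_wd h k).choose else 0

theorem wdT_of {y : SF n M.Y.X} (e : pb M.oe.smo y = η) (u : M.K.T) :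
    wdT h η (of h M u) = of h M ((ovr M.cln).wd y u) := by
  have k : Xt c η := ⟨n, M.Y, M.kah, M.j, M.alg, y, e.symm⟩
  rw [wdT, dif_pos k]
  exact (ex_wd h k).choose_spec M y e u

theorem Xt.ind (k : Xt c η) {p : TT h → Prop}
    (a : ∀ (M : Mk c Φ) u y, M.Gen → P275MC.pb M.oe.smo y = η → p (of h M u)) (t : TT h) : p t := by
  induction t using P275SM.ind with | k M u _ =>
  obtain ⟨M₁, F, φ, y, b1, b2, b3⟩ := k.ex M
  exact of_up h b2 u ▸ a M₁ _ y b1 b3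

theorem pull_wdT (k : Xt c η) (hf : Mo c' Φ' c Φ f) (hs : Smo n' n f) (t : TT h) :
    pull h h' f (wdT h η t) = wdT h' (pb hs η) (pull h h' f t) := by
  induction t using k.ind with | a M u y _ e =>
  obtain ⟨M', -, -, F, φ, -, -, a⟩ := hf.ex h'.some M
  rw [wdT_of e, pull_of hf a, pull_of hf a, a.up_wd, wdT_of ((a.pb_j hs y).trans (congrArg _ e))]

section mor

variable (k : Xt c η) {s : ℕ} (h0 : η ∈ Dg n U s) (h1 : del n U η = 0) (h2 : dlb n U η = 0)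

include h0 h1 h2 in
theorem Mk.Gen.ext_cl (b : M.Gen) {y : SF n M.Y.X} (e : pb M.oe.smo y = η) :
    y ∈ Dg n M.Y.X s ∧ del _ _ y = 0 ∧ dlb _ _ y = 0 := by
  have i := pb_inj_dense M.oe b.dense
  refine ⟨mem_Dg_iff.2 (i ?_), i ?_, i ?_⟩
  · rw [pb_pj, e, pj_eq h0]
  · rw [map_zero, ← h1, ← e]
    exact pb_del M.emb.hol y
  · rw [map_zero, ← h2, ← e]
    exact pb_dlb M.emb.hol _ y

include k h0 h1 h2

theorem wdT_sgn (t : TT h) : (tri h).A (wdT h η t) = (-1 : ℂ) ^ s • wdT h η ((tri h).A t) ∧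
    (tri h).B (wdT h η t) = (-1 : ℂ) ^ s • wdT h η ((tri h).B t) ∧
    (tri h).δ (wdT h η t) = (-1 : ℂ) ^ s • wdT h η ((tri h).δ t) := by
  induction t using k.ind with | a M u y b e =>
  obtain ⟨a1, a2, a3⟩ := b.ext_cl h0 h1 h2 e
  obtain ⟨b1, b2, b3⟩ := sgn_wd (ovr M.cln) a1 a2 a3 u
  simp only [wdT_of e, (str_of h M).A, (str_of h M).B, (str_of h M).δ, b1, b2, b3, map_smul,
    and_self]

theorem wdT_dg (q : ℕ) (t : TT h) : (tri h).dg (q + s) (wdT h η t) = wdT h η ((tri h).dg q t) := by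
  induction t using k.ind with | a M u y b e =>
  obtain ⟨a1, a2, a3⟩ := b.ext_cl h0 h1 h2 e
  rw [wdT_of e, (str_of h M).dg, (str_of h M).dg, wdT_of e, ((ovr M.cln).mor_wd a1 a2 a3).dg]

theorem wdT_mor : Tri.Mor (tri h) (tri h) s (wdT h η) :=
  ⟨⟨(-1) ^ s, pow_ne_zero _ (neg_ne_zero.2 one_ne_zero), fun t => (wdT_sgn k h0 h1 h2 t).1,
    fun t => (wdT_sgn k h0 h1 h2 t).2.1, fun t => (wdT_sgn k h0 h1 h2 t).2.2⟩, wdT_dg k h0 h1 h2⟩

end mor

end Vale.Agent.P275SM
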